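import Vale.Agent.P098.Exact.D6.BoundaryDefs

/-! One case of the boundary inequality of the certificate in dimension six. -/

noncomputable section

set_option linter.unusedSimpArgs false

namespace Vale.Agent.P098.Exact.D6

/-- Reduced coefficient. -/
def hiE0 (h : ℝ) : ℝ := fB00 h + fB01 h * (1 / 2 : ℝ) * Rd h ^ 2

theorem hiE0_eq (h : ℝ) : hiE0 h =
    (21811 / 8192 : ℝ)
    + (-347671 / 32768 : ℝ) * h
    + (999187 / 131072 : ℝ) * h ^ 2
    + (4288759 / 262144 : ℝ) * h ^ 3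
    + (-8826059 / 524288 : ℝ) * h ^ 4
    + (-15613261 / 1048576 : ℝ) * h ^ 5
    + (41310313 / 4194304 : ℝ) * h ^ 6
    + (76960419 / 4194304 : ℝ) * h ^ 7
    + (-16267125 / 2097152 : ℝ) * h ^ 8
    + (-39486645 / 4194304 : ℝ) * h ^ 9
    + (64285425 / 16777216 : ℝ) * h ^ 10
    + (14989725 / 16777216 : ℝ) * h ^ 11
    + (-1063125 / 16777216 : ℝ) * h ^ 12 := by
  simp only [hiE0, Rd, fB00, fB01, fB10, fB11, fB20, fB21, fB30] <;> ring

/-- Reduced coefficient. -/
def hiE1 (h : ℝ) : ℝ := fB01 h * (1 / 4 : ℝ) + fB20 h * Rd h ^ 1 + fB21 h * (1 / 2 : ℝ) * Rd h ^ 2 * Rd h ^ 1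

theorem hiE1_eq (h : ℝ) : hiE1 h =
    (7111 / 16384 : ℝ)
    + (187803 / 65536 : ℝ) * h
    + (-840379 / 262144 : ℝ) * h ^ 2
    + (-2817041 / 262144 : ℝ) * h ^ 3
    + (1870903 / 262144 : ℝ) * h ^ 4
    + (103183 / 8192 : ℝ) * h ^ 5
    + (-674855 / 131072 : ℝ) * h ^ 6
    + (-273855 / 65536 : ℝ) * h ^ 7
    + (23625 / 65536 : ℝ) * h ^ 8 := by
  simp only [hiE1, Rd, fB00, fB01, fB10, fB11, fB20, fB21, fB30] <;> ring

/-- Reduced coefficient. -/
def hiE2 (h : ℝ) : ℝ := fB21 h * (1 / 4 : ℝ) * Rd h ^ 1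

theorem hiE2_eq (h : ℝ) : hiE2 h =
    (-247 / 16384 : ℝ)
    + (-1471 / 16384 : ℝ) * h
    + (1775 / 65536 : ℝ) * h ^ 2
    + (7355 / 65536 : ℝ) * h ^ 3
    + (-675 / 65536 : ℝ) * h ^ 4 := by
  simp only [hiE2, Rd, fB00, fB01, fB10, fB11, fB20, fB21, fB30] <;> ring

/-- Reduced coefficient. -/
def hiO0 (h : ℝ) : ℝ := fB10 h + fB11 h * (1 / 2 : ℝ) * Rd h ^ 2

theorem hiO0_eq (h : ℝ) : hiO0 h =
    (-26141 / 8192 : ℝ)
    + (89167 / 16384 : ℝ) * h
    + (449177 / 65536 : ℝ) * h ^ 2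
    + (-510805 / 65536 : ℝ) * h ^ 3
    + (-4376543 / 262144 : ℝ) * h ^ 4
    + (4620025 / 524288 : ℝ) * h ^ 5
    + (8588973 / 524288 : ℝ) * h ^ 6
    + (-7077945 / 1048576 : ℝ) * h ^ 7
    + (-3787515 / 1048576 : ℝ) * h ^ 8
    + (313875 / 1048576 : ℝ) * h ^ 9 := by
  simp only [hiO0, Rd, fB00, fB01, fB10, fB11, fB20, fB21, fB30] <;> ring

/-- Reduced coefficient. -/
def hiO1 (h : ℝ) : ℝ := fB11 h * (1 / 4 : ℝ) + fB30 h * Rd h ^ 1

theorem hiO1_eq (h : ℝ) : hiO1 h =
    (7137 / 16384 : ℝ)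
    + (-26679 / 32768 : ℝ) * h
    + (-58531 / 32768 : ℝ) * h ^ 2
    + (67195 / 65536 : ℝ) * h ^ 3
    + (84025 / 65536 : ℝ) * h ^ 4
    + (-7425 / 65536 : ℝ) * h ^ 5 := by
  simp only [hiO1, Rd, fB00, fB01, fB10, fB11, fB20, fB21, fB30] <;> ring

/-- Coefficient in the scaled square defect. -/
def hiL0 (h : ℝ) : ℝ := hiE0 h * (Rd h ^ 2 / 3) ^ 0

theorem hiL0_eq (h : ℝ) : hiL0 h =
    evZ [44668928, -178007552, 127895936, 274480576, -282433888, -249812176, 165241252, 307841676, -130137000, -157946580, 64285425, 14989725, -1063125] h / 16777216 := by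
  simp only [hiL0, hiE0_eq, hiE1_eq, hiE2_eq, hiO0_eq, hiO1_eq, Rd, evZ] <;> push_cast <;> ring

/-- Coefficient in the scaled square defect. -/
def hiL1 (h : ℝ) : ℝ := hiE1 h * (Rd h ^ 2 / 3) ^ 1

theorem hiL1_eq (h : ℝ) : hiL1 h =
    evZ [1820416, 12019392, -17997104, -75121136, 66394008, 184291636, -117440955, -220026985, 102272975, 126363200, -37522750, -27385500, 2362500] h / 12582912 := by
  simp only [hiL1, hiE0_eq, hiE1_eq, hiE2_eq, hiO0_eq, hiO1_eq, Rd, evZ] <;> push_cast <;> ring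

/-- Coefficient in the scaled square defect. -/
def hiL2 (h : ℝ) : ℝ := hiE2 h * (Rd h ^ 2 / 3) ^ 2

theorem hiL2_eq (h : ℝ) : hiL2 h =
    evZ [-252928, -1506304, 1719040, 9414400, -4816000, -23536000, 7100000, 29420000, -5787500, -18387500, 2459375, 4596875, -421875] h / 150994944 := by
  simp only [hiL2, hiE0_eq, hiE1_eq, hiE2_eq, hiO0_eq, hiO1_eq, Rd, evZ] <;> push_cast <;> ring

theorem hiL_0_0 {h : ℝ} (h0 : 0 ≤ h) (h1 : h ≤ 8945 / 10000) :
    0 ≤ hiL0 h := by
  have e : hiL0 h = evZ [44668928, -178007552, 127895936, 274480576, -282433888, -249812176, 165241252, 307841676, -130137000, -157946580, 64285425, 14989725, -1063125] h / 16777216 := by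
    simp only [hiL0_eq, hiL1_eq, hiL2_eq, evZ] <;> push_cast <;> ring
  rw [e]
  exact div_nonneg (nn_cover _ 4000 (by norm_num) 0 1789 [3578] (by decide +kernel)
    (by push_cast; linarith) (by simp; linarith)) (by norm_num)

theorem hiL_0_1 {h : ℝ} (h0 : 0 ≤ h) (h1 : h ≤ 8945 / 10000) :
    0 ≤ hiL0 h + hiL1 h * (1 / 2 : ℝ) := by
  have e : hiL0 h + hiL1 h * (1 / 2 : ℝ) = evZ [137647616, -509983872, 347693600, 673199456, -714513648, -380853256, 260841846, 483471058, -185865050, -221113340, 117810775, -9801825, 1535625] h / 50331648 := by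
    simp only [hiL0_eq, hiL1_eq, hiL2_eq, evZ] <;> push_cast <;> ring
  rw [e]
  exact div_nonneg (nn_cover _ 4000 (by norm_num) 0 1789 [3578] (by decide +kernel)
    (by push_cast; linarith) (by simp; linarith)) (by norm_num)

theorem hiL_0_2 {h : ℝ} (h0 : 0 ≤ h) (h1 : h ≤ 8945 / 10000) :
    0 ≤ hiL0 h + hiL1 h + hiL2 h := by
  have e : hiL0 h + hiL1 h + hiL2 h = evZ [13237888, -45604424, 29275538, 49321436, -54687278, -1885811, 2655619, 4989727, 1570475, 2389115, 4086100, -5910050, 573750] h / 4718592 := by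
    simp only [hiL0_eq, hiL1_eq, hiL2_eq, evZ] <;> push_cast <;> ring
  rw [e]
  exact div_nonneg (nn_cover _ 2000 (by norm_num) 0 1789 [] (by decide +kernel)
    (by push_cast; linarith) (by simp; linarith)) (by norm_num)

theorem hiL_0 {h μ : ℝ} (h0 : 0 ≤ h) (h1 : h ≤ 8945 / 10000) (ha : (0 : ℝ) ≤ μ) (hb : μ ≤ (1 : ℝ)) :
    0 ≤ hiL0 h + hiL1 h * μ ^ 1 + hiL2 h * μ ^ 2 := by
  have e : hiL0 h + hiL1 h * μ ^ 1 + hiL2 h * μ ^ 2 =
      (hiL0 h) * ((μ - (0 : ℝ)) ^ 0 * ((1 : ℝ) - μ) ^ 2 * (1 : ℝ))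
      + (hiL0 h + hiL1 h * (1 / 2 : ℝ)) * ((μ - (0 : ℝ)) ^ 1 * ((1 : ℝ) - μ) ^ 1 * (2 : ℝ))
      + (hiL0 h + hiL1 h + hiL2 h) * ((μ - (0 : ℝ)) ^ 2 * ((1 : ℝ) - μ) ^ 0 * (1 : ℝ)) := by
    ring
  rw [e]
  exact (add_nonneg (add_nonneg (mul_nonneg (hiL_0_0 h0 h1) (mul_nonneg (mul_nonneg (pow_nonneg (sub_nonneg.2 ha) _) (pow_nonneg (sub_nonneg.2 hb) _)) (by norm_num)))
    (mul_nonneg (hiL_0_1 h0 h1) (mul_nonneg (mul_nonneg (pow_nonneg (sub_nonneg.2 ha) _) (pow_nonneg (sub_nonneg.2 hb) _)) (by norm_num))))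
    (mul_nonneg (hiL_0_2 h0 h1) (mul_nonneg (mul_nonneg (pow_nonneg (sub_nonneg.2 ha) _) (pow_nonneg (sub_nonneg.2 hb) _)) (by norm_num))))

theorem hiL_all {h μ : ℝ} (h0 : 0 ≤ h) (h1 : h ≤ 8945 / 10000) (u0 : 0 ≤ μ) (u1 : μ ≤ 1) :
    0 ≤ hiL0 h + hiL1 h * μ ^ 1 + hiL2 h * μ ^ 2 := by
  exact hiL_0 h0 h1 (by linarith) (by linarith)

/-- Coefficient in the scaled square defect. -/
def hiG0 (h : ℝ) : ℝ := (hiE0 h * hiE0 h) * (Rd h ^ 2 / 3) ^ 0

theorem hiG0_eq (h : ℝ) : hiG0 h =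
    evZ [1995313128669184, -15902813047488512, 43112637282385920, -21011378782732288, -106593898380967936, 148442946165587968, 106794500669075456, -250271622862336000, -136323356512032768, 342785403683855872, 166746289147959296, -389837437521952640, -128684721883415408, 295477774928431584, 102316526463835536, -173491156392851520, -65952939403055160, 86173859103156000, 17092877348739600, -24863310093438000, -325831934100375, 2263075600241250, 88004970669375, -31871902781250, 1130234765625] h / 281474976710656 := by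
  simp only [hiG0, hiE0_eq, hiE1_eq, hiE2_eq, hiO0_eq, hiO1_eq, Rd, evZ] <;> push_cast <;> ring

/-- Coefficient in the scaled square defect. -/
def hiG1 (h : ℝ) : ℝ := (hiE0 h * hiE1 h + hiE1 h * hiE0 h) * (Rd h ^ 2 / 3) ^ 1 + -(Rd h * (hiO0 h * hiO0 h) * (Rd h ^ 2 / 3) ^ 1)

theorem hiG1_eq (h : ℝ) : hiG1 h =
    evZ [-553914319503360, 2869832172175360, -1740375597580288, -14145710537900032, 21722937940922368, 24565913623574528, -58974923773455360, -16909594102787072, 66166711668820352, 15129268151410816, -12016286861544576, -55901069194969600, -54292211501617592, 105453582553033680, 74140725211681280, -104892279328585000, -51461655667980450, 61083466869288000, 21679541375088750, -20193381517230000, -5442692181935625, 3102305662068750, 770735135334375, -168146697656250, 7291423828125] h / 211106232532992 := by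
  simp only [hiG1, hiE0_eq, hiE1_eq, hiE2_eq, hiO0_eq, hiO1_eq, Rd, evZ] <;> push_cast <;> ring

/-- Coefficient in the scaled square defect. -/
def hiG2 (h : ℝ) : ℝ := (hiE0 h * hiE2 h + hiE1 h * hiE1 h + hiE2 h * hiE0 h) * (Rd h ^ 2 / 3) ^ 2 + -(Rd h * (hiO0 h * hiO1 h + hiO1 h * hiO0 h) * (Rd h ^ 2 / 3) ^ 2)

theorem hiG2_eq (h : ℝ) : hiG2 h =
    evZ [406475411816448, -1070768511516672, -2698821161615360, 9128196976132096, 4951141435213824, -31631710008954880, 9035999261200384, 51669640060139520, -61331992924682496, -17284678408156672, 139839472527036928, -90490471194980160, -188787222487811960, 192280020168422000, 169381289567233000, -194065097841080000, -105044320930167500, 113208733845700000, 44957965655212500, -37621581138850000, -12405221821740625, 6242630794968750, 1679544685828125, -365187171093750, 15968232421875] h / 1266637395197952 := by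
  simp only [hiG2, hiE0_eq, hiE1_eq, hiE2_eq, hiO0_eq, hiO1_eq, Rd, evZ] <;> push_cast <;> ring

/-- Coefficient in the scaled square defect. -/
def hiG3 (h : ℝ) : ℝ := (hiE1 h * hiE2 h + hiE2 h * hiE1 h) * (Rd h ^ 2 / 3) ^ 3 + -(Rd h * (hiO1 h * hiO1 h) * (Rd h ^ 2 / 3) ^ 3)

theorem hiG3_eq (h : ℝ) : hiG3 h =
    evZ [-14273636728832, 38350039416832, 158850109440000, -536465314119680, -834175045656576, 3298501121351680, 2786504955676672, -11808291511326720, -6683339576286720, 27376124452851200, 12108854456086400, -43115608664464000, -16692963309316000, 46921374100860000, 17154581160975000, -35068353678125000, -12628182289118750, 17446641124000000, 6246811511656250, -5390346533750000, -1845988360078125, 890729889843750, 241006752734375, -52655378906250, 2313720703125] h / 1899956092796928 := by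
  simp only [hiG3, hiE0_eq, hiE1_eq, hiE2_eq, hiO0_eq, hiO1_eq, Rd, evZ] <;> push_cast <;> ring

/-- Coefficient in the scaled square defect. -/
def hiG4 (h : ℝ) : ℝ := (hiE2 h * hiE2 h) * (Rd h ^ 2 / 3) ^ 4

theorem hiG4_eq (h : ℝ) : hiG4 h =
    evZ [63972573184, 761972916224, 1399365042176, -9941124382720, -22970595737600, 58782007296000, 139386298368000, -207869952000000, -481253698560000, 488268441600000, 1073751744000000, -799508505600000, -1630097246400000, 930684048000000, 1710304800000000, -769627200000000, -1225822818750000, 442679062500000, 574122390625000, -168475468750000, -158118349609375, 38125332031250, 19056162109375, -3878613281250, 177978515625] h / 22799473113563136 := by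
  simp only [hiG4, hiE0_eq, hiE1_eq, hiE2_eq, hiO0_eq, hiO1_eq, Rd, evZ] <;> push_cast <;> ring

theorem hiG_0_0 {h : ℝ} (h0 : 0 ≤ h) (h1 : h ≤ 8945 / 10000) :
    0 ≤ hiG0 h := by
  have e : hiG0 h = evZ [1995313128669184, -15902813047488512, 43112637282385920, -21011378782732288, -106593898380967936, 148442946165587968, 106794500669075456, -250271622862336000, -136323356512032768, 342785403683855872, 166746289147959296, -389837437521952640, -128684721883415408, 295477774928431584, 102316526463835536, -173491156392851520, -65952939403055160, 86173859103156000, 17092877348739600, -24863310093438000, -325831934100375, 2263075600241250, 88004970669375, -31871902781250, 1130234765625] h / 281474976710656 := by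
    simp only [hiG0_eq, hiG1_eq, hiG2_eq, hiG3_eq, hiG4_eq, evZ] <;> push_cast <;> ring
  rw [e]
  exact div_nonneg (nn_cover _ 4000 (by norm_num) 0 1789 [3578] (by decide +kernel)
    (by push_cast; linarith) (by simp; linarith)) (by norm_num)

theorem hiG_0_1 {h : ℝ} (h0 : 0 ≤ h) (h1 : h ≤ 8945 / 10000) :
    0 ≤ hiG0 h + hiG1 h * (1 / 8 : ℝ) := by
  have e : hiG0 h + hiG1 h * (1 / 8 : ℝ) = evZ [11417964452511744, -92547046112755712, 256935448096735232, -140213983234293760, -617840452344885248, 915223590617102336, 581792080240997376, -1518539331276803072, -751773427403376256, 2071841690254546048, 988461448026211200, -2394925694326685440, -826400542802110040, 1878320232123623184, 688039883994694496, -1145839217685694120, -447179292086311410, 578126621488224000, 124236805467526350, -169373242077858000, -7397683786537875, 16680759263516250, 1298764959350625, -359378114343750, 14072832421875] h / 1688849860263936 := by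
    simp only [hiG0_eq, hiG1_eq, hiG2_eq, hiG3_eq, hiG4_eq, evZ] <;> push_cast <;> ring
  rw [e]
  exact div_nonneg (nn_cover _ 4000 (by norm_num) 0 1789 [3578] (by decide +kernel)
    (by push_cast; linarith) (by simp; linarith)) (by norm_num)

theorem hiG_0_2 {h : ℝ} (h0 : 0 ≤ h) (h1 : h ≤ 8945 / 10000) :
    0 ≤ hiG0 h + hiG1 h * (1 / 4 : ℝ) + hiG2 h * (1 / 24 : ℝ) := by
  have e : hiG0 h + hiG1 h * (1 / 4 : ℝ) + hiG2 h * (1 / 24 : ℝ) = evZ [195959377805967360, -1615260619441963008, 4590812483823173632, -2769346290923356160, -10725164117836118016, 16884579366323228672, 9419744815676956672, -27586411016772483072, -12402252876146688768, 37548192572899066880, 17715852373491036160, -44205372214584770880, -16041256799954909336, 35900208684348245552, 13888632255281996968, -22707232044098104160, -9080581380507420980, 11618990324280916000, 2671452208822284300, -3449820805850434000, -243531989254263625, 362337799455498750, 38930546390158125, -9860633787093750,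 400524844921875] h / 30399297484750848 := by
    simp only [hiG0_eq, hiG1_eq, hiG2_eq, hiG3_eq, hiG4_eq, evZ] <;> push_cast <;> ring
  rw [e]
  exact div_nonneg (nn_cover _ 4000 (by norm_num) 0 1789 [3578] (by decide +kernel)
    (by push_cast; linarith) (by simp; linarith)) (by norm_num)

theorem hiG_0_3 {h : ℝ} (h0 : 0 ≤ h) (h1 : h ≤ 8945 / 10000) :
    0 ≤ hiG0 h + hiG1 h * (3 / 8 : ℝ) + hiG2 h * (1 / 8 : ℝ) + hiG3 h * (1 / 32 : ℝ) := by
  have e : hiG0 h + hiG1 h * (3 / 8 : ℝ) + hiG2 h * (1 / 8 : ℝ) + hiG3 h * (1 / 32 : ℝ) = evZ [373589468120350720, -3131452004692262912, 9108335011596435456, -6011961838620704768, -20649332079103832064, 34530303284180672512, 16755322877509998592, -55586697152516069376, -22674515443490861568, 75599276210069147648, 35570585164530701696, -90828260413632832000, -34808875067228615824, 76412787795380251584, 31141010357614427016, -50001914889067713320, -20446587831071926910, 25907267032363000000, 6309446581280269850,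 -7782480017410298000, -734467772705250375, 862219855815191250, 112566743148400625, -27287952753093750, 1129727598046875] h / 60798594969501696 := by
    simp only [hiG0_eq, hiG1_eq, hiG2_eq, hiG3_eq, hiG4_eq, evZ] <;> push_cast <;> ring
  rw [e]
  exact div_nonneg (nn_cover _ 4000 (by norm_num) 0 1789 [3578] (by decide +kernel)
    (by push_cast; linarith) (by simp; linarith)) (by norm_num)

theorem hiG_0_4 {h : ℝ} (h0 : 0 ≤ h) (h1 : h ≤ 8945 / 10000) :
    0 ≤ hiG0 h + hiG1 h * (1 / 2 : ℝ) + hiG2 h * (1 / 4 : ℝ) + hiG3 h * (1 / 8 : ℝ) + hiG4 h * (1 / 16 : ℝ) := by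
  have e : hiG0 h + hiG1 h * (1 / 2 : ℝ) + hiG2 h * (1 / 4 : ℝ) + hiG3 h * (1 / 8 : ℝ) + hiG4 h * (1 / 16 : ℝ) = evZ [2136267569046224896, -18206684882695880704, 54179792080018079744, -38808295733548417024, -119040634909133619200, 211408747289645383680, 88168946178897395712, -335525305316289282048, -124083816051840264192, 456734589267018903552, 216081247168017466368, -561078730855395663360, -227678811534096413376, 489022296747663456384, 209268677981527656576, -330286565185065769920, -137805373268224256160, 173027627675683908000, 44270963917888876600, -52508222146258318000, -6062402041943275375, 6084223129866091250, 906700034523769375, -214145816805281250, 8969994453515625] h / 364791569817010176 := by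
    simp only [hiG0_eq, hiG1_eq, hiG2_eq, hiG3_eq, hiG4_eq, evZ] <;> push_cast <;> ring
  rw [e]
  exact div_nonneg (nn_cover _ 8000 (by norm_num) 0 3578 [5367, 7156] (by decide +kernel)
    (by push_cast; linarith) (by simp; linarith)) (by norm_num)

theorem hiG_0 {h μ : ℝ} (h0 : 0 ≤ h) (h1 : h ≤ 8945 / 10000) (ha : (0 : ℝ) ≤ μ) (hb : μ ≤ (1 / 2 : ℝ)) :
    0 ≤ hiG0 h + hiG1 h * μ ^ 1 + hiG2 h * μ ^ 2 + hiG3 h * μ ^ 3 + hiG4 h * μ ^ 4 := by
  have e : hiG0 h + hiG1 h * μ ^ 1 + hiG2 h * μ ^ 2 + hiG3 h * μ ^ 3 + hiG4 h * μ ^ 4 =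
      (hiG0 h) * ((μ - (0 : ℝ)) ^ 0 * ((1 / 2 : ℝ) - μ) ^ 4 * (16 : ℝ))
      + (hiG0 h + hiG1 h * (1 / 8 : ℝ)) * ((μ - (0 : ℝ)) ^ 1 * ((1 / 2 : ℝ) - μ) ^ 3 * (64 : ℝ))
      + (hiG0 h + hiG1 h * (1 / 4 : ℝ) + hiG2 h * (1 / 24 : ℝ)) * ((μ - (0 : ℝ)) ^ 2 * ((1 / 2 : ℝ) - μ) ^ 2 * (96 : ℝ))
      + (hiG0 h + hiG1 h * (3 / 8 : ℝ) + hiG2 h * (1 / 8 : ℝ) + hiG3 h * (1 / 32 : ℝ)) * ((μ - (0 : ℝ)) ^ 3 * ((1 / 2 : ℝ) - μ) ^ 1 * (64 : ℝ))
      + (hiG0 h + hiG1 h * (1 / 2 : ℝ) + hiG2 h * (1 / 4 : ℝ) + hiG3 h * (1 / 8 : ℝ) + hiG4 h * (1 / 16 : ℝ)) * ((μ - (0 : ℝ)) ^ 4 * ((1 / 2 : ℝ) - μ) ^ 0 * (16 : ℝ)) := by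
    ring
  rw [e]
  exact (add_nonneg (add_nonneg (add_nonneg (add_nonneg (mul_nonneg (hiG_0_0 h0 h1) (mul_nonneg (mul_nonneg (pow_nonneg (sub_nonneg.2 ha) _) (pow_nonneg (sub_nonneg.2 hb) _)) (by norm_num)))
    (mul_nonneg (hiG_0_1 h0 h1) (mul_nonneg (mul_nonneg (pow_nonneg (sub_nonneg.2 ha) _) (pow_nonneg (sub_nonneg.2 hb) _)) (by norm_num))))
    (mul_nonneg (hiG_0_2 h0 h1) (mul_nonneg (mul_nonneg (pow_nonneg (sub_nonneg.2 ha) _) (pow_nonneg (sub_nonneg.2 hb) _)) (by norm_num))))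
    (mul_nonneg (hiG_0_3 h0 h1) (mul_nonneg (mul_nonneg (pow_nonneg (sub_nonneg.2 ha) _) (pow_nonneg (sub_nonneg.2 hb) _)) (by norm_num))))
    (mul_nonneg (hiG_0_4 h0 h1) (mul_nonneg (mul_nonneg (pow_nonneg (sub_nonneg.2 ha) _) (pow_nonneg (sub_nonneg.2 hb) _)) (by norm_num))))

theorem hiG_1_0 {h : ℝ} (h0 : 0 ≤ h) (h1 : h ≤ 8945 / 10000) :
    0 ≤ hiG0 h + hiG1 h * (1 / 2 : ℝ) + hiG2 h * (1 / 4 : ℝ) + hiG3 h * (1 / 8 : ℝ) + hiG4 h * (1 / 16 : ℝ) := by
  have e : hiG0 h + hiG1 h * (1 / 2 : ℝ) + hiG2 h * (1 / 4 : ℝ) + hiG3 h * (1 / 8 : ℝ) + hiG4 h * (1 / 16 : ℝ) = evZ [2136267569046224896, -18206684882695880704, 54179792080018079744, -38808295733548417024, -119040634909133619200, 211408747289645383680, 88168946178897395712, -335525305316289282048, -124083816051840264192, 456734589267018903552, 216081247168017466368, -561078730855395663360, -227678811534096413376, 489022296747663456384, 209268677981527656576, -330286565185065769920, -137805373268224256160,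 173027627675683908000, 44270963917888876600, -52508222146258318000, -6062402041943275375, 6084223129866091250, 906700034523769375, -214145816805281250, 8969994453515625] h / 364791569817010176 := by
    simp only [hiG0_eq, hiG1_eq, hiG2_eq, hiG3_eq, hiG4_eq, evZ] <;> push_cast <;> ring
  rw [e]
  exact div_nonneg (nn_cover _ 8000 (by norm_num) 0 3578 [5367, 7156] (by decide +kernel)
    (by push_cast; linarith) (by simp; linarith)) (by norm_num)

theorem hiG_1_1 {h : ℝ} (h0 : 0 ≤ h) (h1 : h ≤ 8945 / 10000) :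
    0 ≤ hiG0 h + hiG1 h * (5 / 8 : ℝ) + hiG2 h * (3 / 8 : ℝ) + hiG3 h * (7 / 32 : ℝ) + hiG4 h * (1 / 8 : ℝ) := by
  have e : hiG0 h + hiG1 h * (5 / 8 : ℝ) + hiG2 h * (3 / 8 : ℝ) + hiG3 h * (7 / 32 : ℝ) + hiG4 h * (1 / 8 : ℝ) = evZ [507749582342586368, -4406164434309545984, 13427393522614386688, -10386205108843151360, -28546319335911061504, 53908918718551683072, 18951488773183699968, -84382606929370536960, -28030134860683839744, 114968380318405730304, 54684745837212680640, -144296974807248583680, -61626093166205282952, 129891966680761350816, 57922823454342187764, -90140410258931314980, -38232804887504237715, 47652913289297454000, 12671312087024033525, -14580391047013712000, -1929499361913762125, 1748781781210258750, 284499902539283750, -66140979273000000, 2790405829687500] h / 91197892454252544 := by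
    simp only [hiG0_eq, hiG1_eq, hiG2_eq, hiG3_eq, hiG4_eq, evZ] <;> push_cast <;> ring
  rw [e]
  exact div_nonneg (nn_cover _ 8000 (by norm_num) 0 3578 [5367, 7156] (by decide +kernel)
    (by push_cast; linarith) (by simp; linarith)) (by norm_num)

theorem hiG_1_2 {h : ℝ} (h0 : 0 ≤ h) (h1 : h ≤ 8945 / 10000) :
    0 ≤ hiG0 h + hiG1 h * (3 / 4 : ℝ) + hiG2 h * (13 / 24 : ℝ) + hiG3 h * (3 / 8 : ℝ) + hiG4 h * (1 / 4 : ℝ) := by
  have e : hiG0 h + hiG1 h * (3 / 4 : ℝ) + hiG2 h * (13 / 24 : ℝ) + hiG3 h * (3 / 8 : ℝ) + hiG4 h * (1 / 4 : ℝ) = evZ [60326111717752832, -532969339108524032, 1662777432738623488, -1380570446824282112, -3415016848502372608, 6860083210441379328, 1987030420108534272, -10595544431438789376, -3155435252416895136, 14472938715662652288, 6975661662663295584, -18590660627169123000, -8368666441323680805, 17280774503553335442, 8011064075210885673, -12299596497869225310, -5295948802914369705, 6555124556793582000, 1803580132084263800, -2020350557418479000,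 -298273921684320500, 249739674167680000, 43511401850480000, -10000000206000000, 424150425000000] h / 11399736556781568 := by
    simp only [hiG0_eq, hiG1_eq, hiG2_eq, hiG3_eq, hiG4_eq, evZ] <;> push_cast <;> ring
  rw [e]
  exact div_nonneg (nn_cover _ 8000 (by norm_num) 0 3578 [5367, 7156] (by decide +kernel)
    (by push_cast; linarith) (by simp; linarith)) (by norm_num)

theorem hiG_1_3 {h : ℝ} (h0 : 0 ≤ h) (h1 : h ≤ 8945 / 10000) :
    0 ≤ hiG0 h + hiG1 h * (7 / 8 : ℝ) + hiG2 h * (3 / 4 : ℝ) + hiG3 h * (5 / 8 : ℝ) + hiG4 h * (1 / 2 : ℝ) := by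
  have e : hiG0 h + hiG1 h * (7 / 8 : ℝ) + hiG2 h * (3 / 4 : ℝ) + hiG3 h * (5 / 8 : ℝ) + hiG4 h * (1 / 2 : ℝ) = evZ [3582995562483712, -32221752662480896, 102888003616357376, -91234035264786688, -203772360068942048, 435721798160416032, 100630585248329520, -664408877345676912, -177118287591430470, 911486107743991146, 448440514874262096, -1200152239330353225, -569647382390251311, 1151475601266212127, 553440596760609918, -839011885981649160, -366210536356457730, 450370601918173500, 127728450283496800, -139706432908084000, -22566289510123000, 17732876914280000, 3264181403080000, -743699016000000, 31675050000000] h / 712483534798848 := by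
    simp only [hiG0_eq, hiG1_eq, hiG2_eq, hiG3_eq, hiG4_eq, evZ] <;> push_cast <;> ring
  rw [e]
  exact div_nonneg (nn_cover _ 8000 (by norm_num) 0 3578 [5367, 7156] (by decide +kernel)
    (by push_cast; linarith) (by simp; linarith)) (by norm_num)

theorem hiG_1_4 {h : ℝ} (h0 : 0 ≤ h) (h1 : h ≤ 8945 / 10000) :
    0 ≤ hiG0 h + hiG1 h + hiG2 h + hiG3 h + hiG4 h := by
  have e : hiG0 h + hiG1 h + hiG2 h + hiG3 h + hiG4 h = evZ [26597401040128, -243407923098880, 795286102320272, -749950780961416, -1515854735485487, 3453922687026612, 604806694123542, -5202659048329011, -1240440483032310, 7181996144842209, 3630903552402732, -9707315235918870, -4855258050896034, 9606375542290164, 4773258168304236, -7152322135689720, -3160060715532360, 3863441550540000, 1125657416035600, -1205286722608000, -209913846136000, 156604583360000, 30153988960000, -6823872000000, 291600000000] h / 5566277615616 := by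
    simp only [hiG0_eq, hiG1_eq, hiG2_eq, hiG3_eq, hiG4_eq, evZ] <;> push_cast <;> ring
  rw [e]
  exact div_nonneg (nn_cover _ 4000 (by norm_num) 0 1789 [3578] (by decide +kernel)
    (by push_cast; linarith) (by simp; linarith)) (by norm_num)

theorem hiG_1 {h μ : ℝ} (h0 : 0 ≤ h) (h1 : h ≤ 8945 / 10000) (ha : (1 / 2 : ℝ) ≤ μ) (hb : μ ≤ (1 : ℝ)) :
    0 ≤ hiG0 h + hiG1 h * μ ^ 1 + hiG2 h * μ ^ 2 + hiG3 h * μ ^ 3 + hiG4 h * μ ^ 4 := by
  have e : hiG0 h + hiG1 h * μ ^ 1 + hiG2 h * μ ^ 2 + hiG3 h * μ ^ 3 + hiG4 h * μ ^ 4 =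
      (hiG0 h + hiG1 h * (1 / 2 : ℝ) + hiG2 h * (1 / 4 : ℝ) + hiG3 h * (1 / 8 : ℝ) + hiG4 h * (1 / 16 : ℝ)) * ((μ - (1 / 2 : ℝ)) ^ 0 * ((1 : ℝ) - μ) ^ 4 * (16 : ℝ))
      + (hiG0 h + hiG1 h * (5 / 8 : ℝ) + hiG2 h * (3 / 8 : ℝ) + hiG3 h * (7 / 32 : ℝ) + hiG4 h * (1 / 8 : ℝ)) * ((μ - (1 / 2 : ℝ)) ^ 1 * ((1 : ℝ) - μ) ^ 3 * (64 : ℝ))
      + (hiG0 h + hiG1 h * (3 / 4 : ℝ) + hiG2 h * (13 / 24 : ℝ) + hiG3 h * (3 / 8 : ℝ) + hiG4 h * (1 / 4 : ℝ)) * ((μ - (1 / 2 : ℝ)) ^ 2 * ((1 : ℝ) - μ) ^ 2 * (96 : ℝ))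
      + (hiG0 h + hiG1 h * (7 / 8 : ℝ) + hiG2 h * (3 / 4 : ℝ) + hiG3 h * (5 / 8 : ℝ) + hiG4 h * (1 / 2 : ℝ)) * ((μ - (1 / 2 : ℝ)) ^ 3 * ((1 : ℝ) - μ) ^ 1 * (64 : ℝ))
      + (hiG0 h + hiG1 h + hiG2 h + hiG3 h + hiG4 h) * ((μ - (1 / 2 : ℝ)) ^ 4 * ((1 : ℝ) - μ) ^ 0 * (16 : ℝ)) := by
    ring
  rw [e]
  exact (add_nonneg (add_nonneg (add_nonneg (add_nonneg (mul_nonneg (hiG_1_0 h0 h1) (mul_nonneg (mul_nonneg (pow_nonneg (sub_nonneg.2 ha) _) (pow_nonneg (sub_nonneg.2 hb) _)) (by norm_num)))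
    (mul_nonneg (hiG_1_1 h0 h1) (mul_nonneg (mul_nonneg (pow_nonneg (sub_nonneg.2 ha) _) (pow_nonneg (sub_nonneg.2 hb) _)) (by norm_num))))
    (mul_nonneg (hiG_1_2 h0 h1) (mul_nonneg (mul_nonneg (pow_nonneg (sub_nonneg.2 ha) _) (pow_nonneg (sub_nonneg.2 hb) _)) (by norm_num))))
    (mul_nonneg (hiG_1_3 h0 h1) (mul_nonneg (mul_nonneg (pow_nonneg (sub_nonneg.2 ha) _) (pow_nonneg (sub_nonneg.2 hb) _)) (by norm_num))))
    (mul_nonneg (hiG_1_4 h0 h1) (mul_nonneg (mul_nonneg (pow_nonneg (sub_nonneg.2 ha) _) (pow_nonneg (sub_nonneg.2 hb) _)) (by norm_num))))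

theorem hiG_all {h μ : ℝ} (h0 : 0 ≤ h) (h1 : h ≤ 8945 / 10000) (u0 : 0 ≤ μ) (u1 : μ ≤ 1) :
    0 ≤ hiG0 h + hiG1 h * μ ^ 1 + hiG2 h * μ ^ 2 + hiG3 h * μ ^ 3 + hiG4 h * μ ^ 4 := by
  rcases le_total μ (1 / 2 : ℝ) with j0 | j0
  · exact hiG_0 h0 h1 (by linarith) (by linarith)
  exact hiG_1 h0 h1 (by linarith) (by linarith)

theorem hi_nonneg {h s : ℝ} (h0 : 0 ≤ h) (h1 : h ≤ 8945 / 10000) (hR : 0 ≤ Rd h)
    (hs : 3 * s ^ 2 ≤ Rd h ^ 3) :
    0 ≤ (hiE0 h + hiE1 h * (s ^ 2 / Rd h) ^ 1 + hiE2 h * (s ^ 2 / Rd h) ^ 2) + s * (hiO0 h + hiO1 h * (s ^ 2 / Rd h) ^ 1) := by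
  obtain ⟨μ, hμ0, hμ1, hμu, hμs⟩ := exists_mu hR hs
  have hL := hiL_all h0 h1 hμ0 hμ1
  have hG := hiG_all h0 h1 hμ0 hμ1
  simp only [hiL0, hiL1, hiL2, hiG0, hiG1, hiG2, hiG3, hiG4] at hL hG
  rw [← hμu]
  refine root_poly (R := Rd h * (μ * (Rd h ^ 2 / 3))) ?_ (hμu ▸ hμs) ?_
  · linear_combination hL
  · linear_combination hG

end Vale.Agent.P098.Exact.D6
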