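import Vale.Agent.P098.Exact.D6.BoundaryDefs

/-! One case of the boundary inequality of the certificate in dimension six. -/

noncomputable section

set_option linter.unusedSimpArgs false

namespace Vale.Agent.P098.Exact.D6

/-- Reduced coefficient. -/
def wE0 (h : ℝ) : ℝ := fW00 h

theorem wE0_eq (h : ℝ) : wE0 h =
    (93 / 2048 : ℝ)
    + (-2227 / 16384 : ℝ) * h
    + (3197 / 65536 : ℝ) * h ^ 2
    + (2121 / 16384 : ℝ) * h ^ 3
    + (9711 / 65536 : ℝ) * h ^ 4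
    + (-8595 / 16384 : ℝ) * h ^ 5
    + (21105 / 262144 : ℝ) * h ^ 6
    + (72225 / 131072 : ℝ) * h ^ 7
    + (-45675 / 131072 : ℝ) * h ^ 8 := by
  simp only [wE0, Rd, fW00, fW10, fW20] <;> ring

/-- Reduced coefficient. -/
def wE1 (h : ℝ) : ℝ := fW20 h * Rd h ^ 1

theorem wE1_eq (h : ℝ) : wE1 h =
    (-231 / 4096 : ℝ)
    + (321 / 2048 : ℝ) * h
    + (-469 / 16384 : ℝ) * h ^ 2
    + (-1605 / 8192 : ℝ) * h ^ 3
    + (1015 / 8192 : ℝ) * h ^ 4 := by
  simp only [wE1, Rd, fW00, fW10, fW20] <;> ring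

/-- Reduced coefficient. -/
def wO0 (h : ℝ) : ℝ := fW10 h

theorem wO0_eq (h : ℝ) : wO0 h =
    (-17 / 4096 : ℝ)
    + (-891 / 8192 : ℝ) * h
    + (573 / 2048 : ℝ) * h ^ 2
    + (1029 / 16384 : ℝ) * h ^ 3
    + (-4815 / 8192 : ℝ) * h ^ 4
    + (3045 / 8192 : ℝ) * h ^ 5 := by
  simp only [wO0, Rd, fW00, fW10, fW20] <;> ring

/-- Coefficient in the scaled square defect. -/
def wL0 (h : ℝ) : ℝ := wE0 h * (Rd h ^ 2 / 3) ^ 0

theorem wL0_eq (h : ℝ) : wL0 h =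
    evZ [11904, -35632, 12788, 33936, 38844, -137520, 21105, 144450, -91350] h / 262144 := by
  simp only [wL0, wE0_eq, wE1_eq, wO0_eq, Rd, evZ] <;> push_cast <;> ring

/-- Coefficient in the scaled square defect. -/
def wL1 (h : ℝ) : ℝ := wE1 h * (Rd h ^ 2 / 3) ^ 1

theorem wL1_eq (h : ℝ) : wL1 h =
    evZ [-14784, 41088, 29456, -154080, 28140, 192600, -92925, -80250, 50750] h / 786432 := by
  simp only [wL1, wE0_eq, wE1_eq, wO0_eq, Rd, evZ] <;> push_cast <;> ring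

theorem wL_0_0 {h : ℝ} (h0 : 0 ≤ h) (h1 : h ≤ 8945 / 10000) :
    0 ≤ wL0 h := by
  have e : wL0 h = evZ [11904, -35632, 12788, 33936, 38844, -137520, 21105, 144450, -91350] h / 262144 := by
    simp only [wL0_eq, wL1_eq, evZ] <;> push_cast <;> ring
  rw [e]
  exact div_nonneg (nn_cover _ 4000 (by norm_num) 0 1789 [3578] (by decide +kernel)
    (by push_cast; linarith) (by simp; linarith)) (by norm_num)

theorem wL_0_1 {h : ℝ} (h0 : 0 ≤ h) (h1 : h ≤ 8945 / 10000) :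
    0 ≤ wL0 h + wL1 h := by
  have e : wL0 h + wL1 h = evZ [10464, -32904, 33910, -26136, 72336, -109980, -14805, 176550, -111650] h / 393216 := by
    simp only [wL0_eq, wL1_eq, evZ] <;> push_cast <;> ring
  rw [e]
  exact div_nonneg (nn_cover _ 4000 (by norm_num) 0 1789 [3578] (by decide +kernel)
    (by push_cast; linarith) (by simp; linarith)) (by norm_num)

theorem wL_0 {h μ : ℝ} (h0 : 0 ≤ h) (h1 : h ≤ 8945 / 10000) (ha : (0 : ℝ) ≤ μ) (hb : μ ≤ (1 : ℝ)) :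
    0 ≤ wL0 h + wL1 h * μ ^ 1 := by
  have e : wL0 h + wL1 h * μ ^ 1 =
      (wL0 h) * ((μ - (0 : ℝ)) ^ 0 * ((1 : ℝ) - μ) ^ 1 * (1 : ℝ))
      + (wL0 h + wL1 h) * ((μ - (0 : ℝ)) ^ 1 * ((1 : ℝ) - μ) ^ 0 * (1 : ℝ)) := by
    ring
  rw [e]
  exact (add_nonneg (mul_nonneg (wL_0_0 h0 h1) (mul_nonneg (mul_nonneg (pow_nonneg (sub_nonneg.2 ha) _) (pow_nonneg (sub_nonneg.2 hb) _)) (by norm_num)))
    (mul_nonneg (wL_0_1 h0 h1) (mul_nonneg (mul_nonneg (pow_nonneg (sub_nonneg.2 ha) _) (pow_nonneg (sub_nonneg.2 hb) _)) (by norm_num))))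

theorem wL_all {h μ : ℝ} (h0 : 0 ≤ h) (h1 : h ≤ 8945 / 10000) (u0 : 0 ≤ μ) (u1 : μ ≤ 1) :
    0 ≤ wL0 h + wL1 h * μ ^ 1 := by
  exact wL_0 h0 h1 (by linarith) (by linarith)

/-- Coefficient in the scaled square defect. -/
def wG0 (h : ℝ) : ℝ := (wE0 h * wE0 h) * (Rd h ^ 2 / 3) ^ 0

theorem wG0_eq (h : ℝ) : wG0 h =
    evZ [141705216, -848326656, 1574096128, -103375744, -1330084208, -5174307840, 12447819360, 1054247328, -19754065224, 953204400, 28019098440, -782794800, -46380905775, 31222138500, 17009919000, -26391015000, 8344822500] h / 68719476736 := by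
  simp only [wG0, wE0_eq, wE1_eq, wO0_eq, Rd, evZ] <;> push_cast <;> ring

/-- Coefficient in the scaled square defect. -/
def wG1 (h : ℝ) : ℝ := (wE0 h * wE1 h + wE1 h * wE0 h) * (Rd h ^ 2 / 3) ^ 1 + -(Rd h * (wO0 h * wO0 h) * (Rd h ^ 2 / 3) ^ 1)

theorem wG1_eq (h : ℝ) : wG1 h =
    evZ [-176580608, 984873984, -1626910464, -634595072, 5856278080, -9600787008, 3711843376, 20411526960, -37317137340, -2701797800, 59282410600, -33588921000, -36296611875, 39689842500, 2032335000, -14661675000, 4636012500] h / 103079215104 := by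
  simp only [wG1, wE0_eq, wE1_eq, wO0_eq, Rd, evZ] <;> push_cast <;> ring

/-- Coefficient in the scaled square defect. -/
def wG2 (h : ℝ) : ℝ := (wE1 h * wE1 h) * (Rd h ^ 2 / 3) ^ 2

theorem wG2_eq (h : ℝ) : wG2 h =
    evZ [218566656, -1214889984, 817268736, 6976413696, -12626065664, -12459525120, 43973134080, -2588544000, -72129354000, 38918040000, 59584565000, -55950300000, -19421034375, 34463362500, -2991825000, -8145375000, 2575562500] h / 618475290624 := by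
  simp only [wG2, wE0_eq, wE1_eq, wO0_eq, Rd, evZ] <;> push_cast <;> ring

theorem wG_0_0 {h : ℝ} (h0 : 0 ≤ h) (h1 : h ≤ 8945 / 10000) :
    0 ≤ wG0 h := by
  have e : wG0 h = evZ [141705216, -848326656, 1574096128, -103375744, -1330084208, -5174307840, 12447819360, 1054247328, -19754065224, 953204400, 28019098440, -782794800, -46380905775, 31222138500, 17009919000, -26391015000, 8344822500] h / 68719476736 := by
    simp only [wG0_eq, wG1_eq, wG2_eq, evZ] <;> push_cast <;> ring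
  rw [e]
  exact div_nonneg (nn_cover _ 4000 (by norm_num) 0 1789 [3578] (by decide +kernel)
    (by push_cast; linarith) (by simp; linarith)) (by norm_num)

theorem wG_0_1 {h : ℝ} (h0 : 0 ≤ h) (h1 : h ≤ 8945 / 10000) :
    0 ≤ wG0 h + wG1 h * (1 / 2 : ℝ) := by
  have e : wG0 h + wG1 h * (1 / 2 : ℝ) = evZ [62133760, -390026496, 773844480, -236180576, 466506364, -6280927632, 10263825364, 5893567236, -24144833253, 39453850, 35834926480, -8984326350, -43859832300, 33339064500, 13265523000, -23458680000, 7417620000] h / 51539607552 := by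
    simp only [wG0_eq, wG1_eq, wG2_eq, evZ] <;> push_cast <;> ring
  rw [e]
  exact div_nonneg (nn_cover _ 4000 (by norm_num) 0 1789 [3578] (by decide +kernel)
    (by push_cast; linarith) (by simp; linarith)) (by norm_num)

theorem wG_0_2 {h : ℝ} (h0 : 0 ≤ h) (h1 : h ≤ 8945 / 10000) :
    0 ≤ wG0 h + wG1 h + wG2 h := by
  have e : wG0 h + wG1 h + wG2 h = evZ [27151872, -183786624, 326416944, 139903848, 658802809, -7289563608, 11142160536, 8085552732, -29613672816, 1955380800, 41715682160, -16533061200, -40914303600, 34600104000, 10143216000, -20852160000, 6593440000] h / 38654705664 := by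
    simp only [wG0_eq, wG1_eq, wG2_eq, evZ] <;> push_cast <;> ring
  rw [e]
  exact div_nonneg (nn_cover _ 4000 (by norm_num) 0 1789 [3578] (by decide +kernel)
    (by push_cast; linarith) (by simp; linarith)) (by norm_num)

theorem wG_0 {h μ : ℝ} (h0 : 0 ≤ h) (h1 : h ≤ 8945 / 10000) (ha : (0 : ℝ) ≤ μ) (hb : μ ≤ (1 : ℝ)) :
    0 ≤ wG0 h + wG1 h * μ ^ 1 + wG2 h * μ ^ 2 := by
  have e : wG0 h + wG1 h * μ ^ 1 + wG2 h * μ ^ 2 =
      (wG0 h) * ((μ - (0 : ℝ)) ^ 0 * ((1 : ℝ) - μ) ^ 2 * (1 : ℝ))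
      + (wG0 h + wG1 h * (1 / 2 : ℝ)) * ((μ - (0 : ℝ)) ^ 1 * ((1 : ℝ) - μ) ^ 1 * (2 : ℝ))
      + (wG0 h + wG1 h + wG2 h) * ((μ - (0 : ℝ)) ^ 2 * ((1 : ℝ) - μ) ^ 0 * (1 : ℝ)) := by
    ring
  rw [e]
  exact (add_nonneg (add_nonneg (mul_nonneg (wG_0_0 h0 h1) (mul_nonneg (mul_nonneg (pow_nonneg (sub_nonneg.2 ha) _) (pow_nonneg (sub_nonneg.2 hb) _)) (by norm_num)))
    (mul_nonneg (wG_0_1 h0 h1) (mul_nonneg (mul_nonneg (pow_nonneg (sub_nonneg.2 ha) _) (pow_nonneg (sub_nonneg.2 hb) _)) (by norm_num))))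
    (mul_nonneg (wG_0_2 h0 h1) (mul_nonneg (mul_nonneg (pow_nonneg (sub_nonneg.2 ha) _) (pow_nonneg (sub_nonneg.2 hb) _)) (by norm_num))))

theorem wG_all {h μ : ℝ} (h0 : 0 ≤ h) (h1 : h ≤ 8945 / 10000) (u0 : 0 ≤ μ) (u1 : μ ≤ 1) :
    0 ≤ wG0 h + wG1 h * μ ^ 1 + wG2 h * μ ^ 2 := by
  exact wG_0 h0 h1 (by linarith) (by linarith)

theorem w_nonneg {h s : ℝ} (h0 : 0 ≤ h) (h1 : h ≤ 8945 / 10000) (hR : 0 ≤ Rd h)
    (hs : 3 * s ^ 2 ≤ Rd h ^ 3) :
    0 ≤ (wE0 h + wE1 h * (s ^ 2 / Rd h) ^ 1) + s * (wO0 h) := by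
  obtain ⟨μ, hμ0, hμ1, hμu, hμs⟩ := exists_mu hR hs
  have hL := wL_all h0 h1 hμ0 hμ1
  have hG := wG_all h0 h1 hμ0 hμ1
  simp only [wL0, wL1, wG0, wG1, wG2] at hL hG
  rw [← hμu]
  refine root_poly (R := Rd h * (μ * (Rd h ^ 2 / 3))) ?_ (hμu ▸ hμs) ?_
  · linear_combination hL
  · linear_combination hG

end Vale.Agent.P098.Exact.D6
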