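import Vale.Agent.P098.Exact.D6.BoundaryLo
import Vale.Agent.P098.Exact.D6.BoundaryHi
import Vale.Agent.P098.Exact.D6.BoundaryW

/-! The boundary inequality of the certificate in dimension six. -/

noncomputable section

set_option linter.unusedSimpArgs false

namespace Vale.Agent.P098.Exact.D6

/-- **Boundary inequality** for the tables. -/
theorem boundary_table (h t t4 : ℝ) (H : BoundaryRange 5 h t t4) :
    0 ≤ bVal table h t t4 + h ^ 2 * bVal table2 h t t4 + h * KVal ktable h t ∧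
      0 ≤ wVal table h t + h ^ 2 * wVal table2 h t := by
  obtain ⟨h0, h1, hR0, s, q, hts, ht4, hql, hqu, hs⟩ := range6 H
  rw [← Rd] at hR0 hs hql hqu hts ht4
  obtain ⟨_, -, -, -, hsu⟩ := exists_mu hR0 hs
  have eb : bVal table h t t4 + h ^ 2 * bVal table2 h t t4 + h * KVal ktable h t = (fB00 h + fB10 h * s + fB20 h * s ^ 2 + fB30 h * s ^ 3) + (fB01 h + fB11 h * s + fB21 h * s ^ 2) * q := by
    rw [ht4, hts]
    simp [bVal, KVal, table, table2, ktable, KTerm.base, Term.bMon, bForm, Rd, fB00, fB01, fB10, fB11, fB20, fB21, fB30]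
    ring
  have ew : wVal table h t + h ^ 2 * wVal table2 h t = fW00 h + fW10 h * s + fW20 h * s ^ 2 := by
    rw [hts]
    simp [wVal, table, table2, Term.bMon, wForm, Rd, fW00, fW10, fW20]
    ring
  rw [eb, ew]
  refine ⟨affine_nonneg hql hqu ?_ ?_, ?_⟩
  · have := lo_nonneg h0 h1 hR0 hs
    simp only [loE0, loE1, loE2, loO0, loO1] at this
    linear_combination this - (fB20 h * ((s ^ 2) ^ 0 * (Rd h * (s ^ 2 / Rd h)) ^ 0) + fB21 h * ((s ^ 2) ^ 0 * (Rd h * (s ^ 2 / Rd h)) ^ 0) * ((1 / 4 : ℝ) * Rd h ^ 2 + (1 : ℝ) * (s ^ 2 / Rd h)) + fB30 h * s * ((s ^ 2) ^ 0 * (Rd h * (s ^ 2 / Rd h)) ^ 0)) * hsu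
  · have := hi_nonneg h0 h1 hR0 hs
    simp only [hiE0, hiE1, hiE2, hiO0, hiO1] at this
    linear_combination this - (fB20 h * ((s ^ 2) ^ 0 * (Rd h * (s ^ 2 / Rd h)) ^ 0) + fB21 h * ((s ^ 2) ^ 0 * (Rd h * (s ^ 2 / Rd h)) ^ 0) * ((1 / 2 : ℝ) * Rd h ^ 2 + (1 / 4 : ℝ) * (s ^ 2 / Rd h)) + fB30 h * s * ((s ^ 2) ^ 0 * (Rd h * (s ^ 2 / Rd h)) ^ 0)) * hsu
  · have := w_nonneg h0 h1 hR0 hs
    simp only [wE0, wE1, wO0] at this
    linear_combination this - (fW20 h * ((s ^ 2) ^ 0 * (Rd h * (s ^ 2 / Rd h)) ^ 0)) * hsu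

end Vale.Agent.P098.Exact.D6
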