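import Mathlib

/-!
Nonnegativity of an integer polynomial on intervals with endpoints in units `1 / D`, decided by
the signs of the homogeneous coefficients in the distances to the endpoints.
-/

namespace Vale.Agent.P098.Exact.D6

/-- Value of an integer polynomial, constant term first. -/
noncomputable def evZ : List ℤ → ℝ → ℝ
  | [], _ => 0
  | c :: P, x => (c : ℝ) + x * evZ P x

/-- Sum of two lists. -/
def addZ : List ℤ → List ℤ → List ℤ
  | [], Q => Q
  | P, [] => P
  | a :: P, b :: Q => (a + b) :: addZ P Q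

/-- Product with `a u + b w` of a form in `(u, w)`, listed by powers of `w`. -/
def mulLin (a b : ℤ) (P : List ℤ) : List ℤ :=
  addZ (P.map fun c => a * c) (0 :: P.map fun c => b * c)

/-- `(D (u + w)) ^ n` by powers of `w`. -/
def powLin (D : ℤ) : ℕ → List ℤ
  | 0 => [1]
  | n + 1 => mulLin D D (powLin D n)

/-- A polynomial as a form in the distances to the endpoints `a / D`, `b / D`. -/
def homog (a b D : ℤ) : List ℤ → List ℤ
  | [] => []
  | c :: P => addZ ((powLin D P.length).map fun e => c * e) (mulLin a b (homog a b D P))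

/-- The form has nonnegative coefficients on every interval of a chain of breakpoints. -/
def nnCover (P : List ℤ) (D : ℤ) : List ℤ → Bool
  | a :: b :: L => decide (a < b) && (homog a b D P).all (fun c => decide (0 ≤ c)) &&
      nnCover P D (b :: L)
  | _ => true

/-- Value of a form given by powers of `w`, of degree `n`. -/
noncomputable def evF (n : ℕ) : List ℤ → ℝ → ℝ → ℝ
  | [], _, _ => 0
  | c :: P, u, w => (c : ℝ) * u ^ n + w * evF (n - 1) P u w

theorem evF_addZ : ∀ (n : ℕ) (P Q : List ℤ) (u w : ℝ),
    evF n (addZ P Q) u w = evF n P u w + evF n Q u w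
  | n, [], Q, u, w => by simp [addZ, evF]
  | n, a :: P, [], u, w => by simp [addZ, evF]
  | n, a :: P, b :: Q, u, w => by
    simp only [addZ, evF, evF_addZ (n - 1) P Q]
    push_cast
    ring

theorem evF_smul : ∀ (n : ℕ) (P : List ℤ) (c : ℤ) (u w : ℝ),
    evF n (P.map fun e => c * e) u w = c * evF n P u w
  | n, [], c, u, w => by simp [evF]
  | n, a :: P, c, u, w => by
    simp only [List.map_cons, evF, evF_smul (n - 1) P c]
    push_cast
    ring

theorem evF_succ : ∀ (n : ℕ) (P : List ℤ) (u w : ℝ), P.length ≤ n + 1 →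
    evF (n + 1) P u w = u * evF n P u w
  | n, [], u, w, _ => by simp [evF]
  | 0, [a], u, w, _ => by simp [evF]; ring
  | n + 1, a :: P, u, w, h => by
    simp only [evF, Nat.add_sub_cancel, evF_succ n P u w (by simpa using h)]
    ring
  | 0, a :: b :: P, u, w, h => by simp at h

theorem mulLin_spec (a b : ℤ) (n : ℕ) (P : List ℤ) (u w : ℝ) (h : P.length ≤ n + 1) :
    evF (n + 1) (mulLin a b P) u w = (a * u + b * w) * evF n P u w := by
  rw [mulLin, evF_addZ, evF_smul, evF_succ n P u w h]
  simp only [evF, Nat.add_sub_cancel, evF_smul]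
  push_cast
  ring

theorem addZ_length : ∀ P Q : List ℤ, (addZ P Q).length = max P.length Q.length
  | [], Q => by simp [addZ]
  | a :: P, [] => by simp [addZ]
  | a :: P, b :: Q => by simp [addZ, addZ_length P Q]

theorem mulLin_length (a b : ℤ) (P : List ℤ) : (mulLin a b P).length = P.length + 1 := by
  simp [mulLin, addZ_length]

theorem powLin_length (D : ℤ) : ∀ n, (powLin D n).length = n + 1
  | 0 => rfl
  | n + 1 => by rw [powLin, mulLin_length, powLin_length D n]

theorem powLin_spec (D : ℤ) (u w : ℝ) : ∀ n, evF n (powLin D n) u w = (D * (u + w)) ^ n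
  | 0 => by simp [powLin, evF]
  | n + 1 => by
    rw [powLin, mulLin_spec D D n _ u w (by simp [powLin_length]), powLin_spec D u w n, pow_succ]
    ring

theorem homog_length (a b D : ℤ) : ∀ c P, (homog a b D (c :: P)).length = P.length + 1
  | c, [] => by simp [homog, powLin, mulLin, addZ]
  | c, d :: P => by
    rw [homog, addZ_length, List.length_map, powLin_length, mulLin_length, homog_length a b D d P]
    simp

theorem homog_spec (a b D : ℤ) (u w x : ℝ) (hx : (D : ℝ) * (u + w) * x = a * u + b * w) :
    ∀ (c : ℤ) (P : List ℤ), evF P.length (homog a b D (c :: P)) u w =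
      (D * (u + w)) ^ P.length * evZ (c :: P) x
  | c, [] => by simp [homog, powLin, mulLin, addZ, evF, evZ]
  | c, d :: P => by
    rw [homog, evF_addZ, evF_smul, powLin_spec, List.length_cons,
      mulLin_spec a b P.length _ u w (by rw [homog_length]), homog_spec a b D u w x hx d P, ← hx]
    simp only [evZ]
    ring

theorem evF_nonneg : ∀ (n : ℕ) (P : List ℤ) (u w : ℝ), 0 ≤ u → 0 ≤ w → (∀ c ∈ P, 0 ≤ c) →
    0 ≤ evF n P u w
  | n, [], u, w, _, _, _ => by simp [evF]
  | n, a :: P, u, w, hu, hw, h => by
    have h1 : (0 : ℝ) ≤ (a : ℝ) := by exact_mod_cast h a (by simp)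
    have h2 := evF_nonneg (n - 1) P u w hu hw fun c hc => h c (by simp [hc])
    simp only [evF]
    positivity

theorem nn_interval (P : List ℤ) (a b D : ℤ) (hab : a < b) (hD : 0 < D)
    (h : (homog a b D P).all (fun c => decide (0 ≤ c)) = true) {x : ℝ} (ha : (a : ℝ) ≤ D * x)
    (hb : (D : ℝ) * x ≤ b) : 0 ≤ evZ P x := by
  cases P with
  | nil => simp [evZ]
  | cons c P =>
    simp only [List.all_eq_true, decide_eq_true_eq] at h
    have h2 := evF_nonneg P.length _ ((b : ℝ) - D * x) ((D : ℝ) * x - a) (by linarith) (by linarith) h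
    rw [homog_spec a b D _ _ x (by ring)] at h2
    have hpos : (0 : ℝ) < (D : ℝ) * ((b : ℝ) - D * x + ((D : ℝ) * x - a)) := by
      have h3 : (a : ℝ) < b := Int.cast_lt.2 hab
      have h4 : (0 : ℝ) < (D : ℝ) := Int.cast_pos.2 hD
      exact mul_pos h4 (by linarith)
    exact nonneg_of_mul_nonneg_right h2 (pow_pos hpos _)

/-- A checked chain gives nonnegativity between its ends. -/
theorem nn_cover (P : List ℤ) (D : ℤ) (hD : 0 < D) : ∀ (a b : ℤ) (L : List ℤ),
    nnCover P D (a :: b :: L) = true → ∀ {x : ℝ}, (a : ℝ) ≤ D * x →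
      (D : ℝ) * x ≤ (((b :: L).getLast (by simp) : ℤ) : ℝ) → 0 ≤ evZ P x
  | a, b, [], h, x, ha, hb => by
    simp only [nnCover, Bool.and_eq_true, decide_eq_true_eq] at h
    exact nn_interval P a b D h.1.1 hD h.1.2 ha (by simpa using hb)
  | a, b, c :: L, h, x, ha, hb => by
    have h' : ((decide (a < b) && (homog a b D P).all fun c => decide (0 ≤ c)) &&
        nnCover P D (b :: c :: L)) = true := h
    simp only [Bool.and_eq_true, decide_eq_true_eq] at h'
    rcases le_total ((D : ℝ) * x) b with hx | hx
    · exact nn_interval P a b D h'.1.1 hD h'.1.2 ha hx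
    · exact nn_cover P D hD b c L h'.2 hx (by simpa using hb)

end Vale.Agent.P098.Exact.D6
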