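import Vale.Agent.P098.Exact.Boundary

/-! The range of curvature and traces at the boundary in dimension six. -/

noncomputable section

namespace Vale.Agent.P098.Exact.D6

/-- The three equal signs case, ordered. -/
theorem oct_ord {t q p : ℝ} (ht : 0 ≤ t) (hq : 0 ≤ q) (hp : 0 ≤ p) :
    let a := t+q+p; let b := t+q; let c := t
    32 * ((a+b+c)^2 - (a*b+b*c+c*a)) * (a*b*c) * (a+b+c) ≤ 9 * ((a+b+c)*(a*b+b*c+c*a) - a*b*c)^2 := by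
  intro a b c
  have e : 9 * ((a+b+c)*(a*b+b*c+c*a) - a*b*c)^2 - 32 * ((a+b+c)^2 - (a*b+b*c+c*a)) * (a*b*c) * (a+b+c) =
    9*(q^2*p^4) + 54*(q^3*p^3) + 117*(q^4*p^2) + 108*(q^5*p) + 36*q^6 + 4*(t*q*p^4) + 96*(t*q^2*p^3)
    + 344*(t*q^3*p^2) + 420*(t*q^4*p) + 168*(t*q^5) + 4*(t^2*p^4) + 56*(t^2*q*p^3) + 348*(t^2*q^2*p^2)
    + 584*(t^2*q^3*p) + 292*(t^2*q^4) + 32*(t^3*p^3) + 176*(t^3*q*p^2) + 336*(t^3*q^2*p) + 224*(t^3*q^3)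
    + 64*(t^4*p^2) + 64*(t^4*q*p) + 64*(t^4*q^2) := by simp only [a,b,c]; ring
  have : 0 ≤ 9 * ((a+b+c)*(a*b+b*c+c*a) - a*b*c)^2 - 32 * ((a+b+c)^2 - (a*b+b*c+c*a)) * (a*b*c) * (a+b+c) := by
    rw [e]; positivity
  linarith

/-- The three equal signs case. -/
theorem oct (a b c : ℝ) (ha : 0 ≤ a) (hb : 0 ≤ b) (hc : 0 ≤ c) :
    32 * ((a+b+c)^2 - (a*b+b*c+c*a)) * (a*b*c) * (a+b+c) ≤ 9 * ((a+b+c)*(a*b+b*c+c*a) - a*b*c)^2 := by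
  have key : ∀ a b c : ℝ, 0 ≤ c → c ≤ b → b ≤ a →
      32 * ((a+b+c)^2 - (a*b+b*c+c*a)) * (a*b*c) * (a+b+c) ≤ 9 * ((a+b+c)*(a*b+b*c+c*a) - a*b*c)^2 := by
    intro a b c hc h1 h2
    have := oct_ord hc (sub_nonneg.2 h1) (sub_nonneg.2 h2)
    simpa using this
  rcases le_total a b with h1 | h1 <;> rcases le_total b c with h2 | h2 <;> rcases le_total a c with h3 | h3
  all_goals first
    | (have := key a b c (by linarith) (by linarith) (by linarith); linarith)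
    | (have := key a c b (by linarith) (by linarith) (by linarith); linear_combination this)
    | (have := key b a c (by linarith) (by linarith) (by linarith); linear_combination this)
    | (have := key b c a (by linarith) (by linarith) (by linarith); linear_combination this)
    | (have := key c a b (by linarith) (by linarith) (by linarith); linear_combination this)
    | (have := key c b a (by linarith) (by linarith) (by linarith); linear_combination this)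

/-- Upper bound of the fourth power sum of four values of sum zero. -/
theorem upper (x y z : ℝ) :
    4 * ((x^2+y^2+z^2+(x+y+z)^2)) * (x^4+y^4+z^4+(x+y+z)^4) ≤
      2 * (x^2+y^2+z^2+(x+y+z)^2)^3 + (x^3+y^3+z^3-(x+y+z)^3)^2 := by
  set w := -(x+y+z) with hw
  suffices h : 0 ≤ 9 * (x*y*z + x*y*w + x*z*w + y*z*w)^2
      - 32 * (x*y + x*z + x*w + y*z + y*w + z*w) * (x*y*z*w) by
    rw [hw] at h; linear_combination h
  have he2 : x*y + x*z + x*w + y*z + y*w + z*w ≤ 0 := by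
    rw [hw]; nlinarith [sq_nonneg (x+y), sq_nonneg (y+z), sq_nonneg (z+x)]
  by_cases h4 : 0 ≤ x*y*z*w
  · nlinarith [mul_nonneg (neg_nonneg.2 he2) h4, sq_nonneg (x*y*z + x*y*w + x*z*w + y*z*w)]
  have key : ∀ a b c d : ℝ, a + b + c + d = 0 → ((0 ≤ a ∧ 0 ≤ b ∧ 0 ≤ c) ∨ (a ≤ 0 ∧ b ≤ 0 ∧ c ≤ 0)) →
      0 ≤ 9 * (a*b*c + a*b*d + a*c*d + b*c*d)^2
        - 32 * (a*b + a*c + a*d + b*c + b*d + c*d) * (a*b*c*d) := by
    intro a b c d hs h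
    obtain rfl : d = -(a+b+c) := by linarith
    rcases h with ⟨ha, hb, hc⟩ | ⟨ha, hb, hc⟩
    · linear_combination oct a b c ha hb hc
    · linear_combination oct (-a) (-b) (-c) (by linarith) (by linarith) (by linarith)
  have hs : x + y + z + w = 0 := by rw [hw]; ring
  have hne : x ≠ 0 ∧ y ≠ 0 ∧ z ≠ 0 ∧ w ≠ 0 := by
    refine ⟨?_,?_,?_,?_⟩ <;> (intro h; simp [h] at h4)
  have pp : ∀ a b : ℝ, 0 ≤ a → 0 ≤ b → 0 ≤ a * b := fun a b => mul_nonneg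
  have nn : ∀ a b : ℝ, a ≤ 0 → b ≤ 0 → 0 ≤ a * b := fun a b => mul_nonneg_of_nonpos_of_nonpos
  have pn : ∀ a b : ℝ, 0 ≤ a → b ≤ 0 → a * b ≤ 0 := fun a b => mul_nonpos_of_nonneg_of_nonpos
  have np : ∀ a b : ℝ, a ≤ 0 → 0 ≤ b → a * b ≤ 0 := fun a b => mul_nonpos_of_nonpos_of_nonneg
  have two : ∀ a b : ℝ, a * b = x * y * z * w → (0 ≤ a ∧ 0 ≤ b) ∨ (a ≤ 0 ∧ b ≤ 0) → False :=
    fun a b he h => h4 (he ▸ h.elim (fun h => pp a b h.1 h.2) (fun h => nn a b h.1 h.2))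
  rcases le_total 0 x with hx | hx <;> rcases le_total 0 y with hy | hy <;> rcases le_total 0 z with hz | hz <;>
    rcases le_total 0 w with hw' | hw'
  all_goals first
    | (have h3 : (0 ≤ x ∧ 0 ≤ y ∧ 0 ≤ z) ∨ (x ≤ 0 ∧ y ≤ 0 ∧ z ≤ 0) := by
          first | exact Or.inl ⟨by assumption, by assumption, by assumption⟩ | exact Or.inr ⟨by assumption, by assumption, by assumption⟩
       linear_combination key x y z w (by linarith) h3)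
    | (have h3 : (0 ≤ x ∧ 0 ≤ y ∧ 0 ≤ w) ∨ (x ≤ 0 ∧ y ≤ 0 ∧ w ≤ 0) := by
          first | exact Or.inl ⟨by assumption, by assumption, by assumption⟩ | exact Or.inr ⟨by assumption, by assumption, by assumption⟩
       linear_combination key x y w z (by linarith) h3)
    | (have h3 : (0 ≤ x ∧ 0 ≤ w ∧ 0 ≤ z) ∨ (x ≤ 0 ∧ w ≤ 0 ∧ z ≤ 0) := by
          first | exact Or.inl ⟨by assumption, by assumption, by assumption⟩ | exact Or.inr ⟨by assumption, by assumption, by assumption⟩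
       linear_combination key x w z y (by linarith) h3)
    | (have h3 : (0 ≤ w ∧ 0 ≤ y ∧ 0 ≤ z) ∨ (w ≤ 0 ∧ y ≤ 0 ∧ z ≤ 0) := by
          first | exact Or.inl ⟨by assumption, by assumption, by assumption⟩ | exact Or.inr ⟨by assumption, by assumption, by assumption⟩
       linear_combination key w y z x (by linarith) h3)
    | exact (two (x * y) (z * w) (by ring) (Or.inl ⟨pp _ _ hx hy, nn _ _ hz hw'⟩)).elim
    | exact (two (x * y) (z * w) (by ring) (Or.inl ⟨nn _ _ hx hy, pp _ _ hz hw'⟩)).elim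
    | exact (two (x * y) (z * w) (by ring) (Or.inr ⟨pn _ _ hx hy, pn _ _ hz hw'⟩)).elim
    | exact (two (x * y) (z * w) (by ring) (Or.inr ⟨pn _ _ hx hy, np _ _ hz hw'⟩)).elim
    | exact (two (x * y) (z * w) (by ring) (Or.inr ⟨np _ _ hx hy, pn _ _ hz hw'⟩)).elim
    | exact (two (x * y) (z * w) (by ring) (Or.inr ⟨np _ _ hx hy, np _ _ hz hw'⟩)).elim

/-- Lower bound of the fourth power sum of four values of sum zero. -/
theorem lower (x y z : ℝ) :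
    (x^2+y^2+z^2+(x+y+z)^2)^3 + 4*(x^3+y^3+z^3-(x+y+z)^3)^2 ≤ 4 * (x^2+y^2+z^2+(x+y+z)^2) * (x^4+y^4+z^4+(x+y+z)^4) := by
  have := Finset.sum_mul_sq_le_sq_mul_sq Finset.univ ![x,y,z,-(x+y+z)] ![x^2-(x^2+y^2+z^2+(x+y+z)^2)/4,y^2-(x^2+y^2+z^2+(x+y+z)^2)/4,z^2-(x^2+y^2+z^2+(x+y+z)^2)/4,(x+y+z)^2-(x^2+y^2+z^2+(x+y+z)^2)/4]
  simp [Fin.sum_univ_four] at this
  linear_combination 4*this

theorem three_sq {R s q : ℝ} (hl : R ^ 3 + 4 * s ^ 2 ≤ 4 * R * q)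
    (hu : 4 * R * q ≤ 2 * R ^ 3 + s ^ 2) : 3 * s ^ 2 ≤ R ^ 3 := by linarith

theorem quartic_zero {x y z : ℝ} (h : x ^ 2 + y ^ 2 + z ^ 2 + (x + y + z) ^ 2 = 0) :
    x ^ 4 + y ^ 4 + z ^ 4 + (x + y + z) ^ 4 = 0 := by
  have hx : x = 0 := pow_eq_zero_iff two_ne_zero |>.1 (by nlinarith [sq_nonneg y, sq_nonneg z])
  have hy : y = 0 := pow_eq_zero_iff two_ne_zero |>.1 (by nlinarith [sq_nonneg x, sq_nonneg z])
  have hz : z = 0 := pow_eq_zero_iff two_ne_zero |>.1 (by nlinarith [sq_nonneg y, sq_nonneg x])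
  subst hx hy hz
  norm_num

theorem q_bounds {R s q : ℝ} (hR : 0 ≤ R) (hl : R ^ 3 + 4 * s ^ 2 ≤ 4 * R * q)
    (hu : 4 * R * q ≤ 2 * R ^ 3 + s ^ 2) (h0 : R = 0 → q = 0) :
    R ^ 2 / 4 + s ^ 2 / R ≤ q ∧ q ≤ R ^ 2 / 2 + s ^ 2 / R / 4 := by
  rcases hR.eq_or_lt with h | h
  · subst h
    simp [h0 rfl]
  obtain ⟨u, hue⟩ : ∃ u, u = s ^ 2 / R := ⟨_, rfl⟩
  have he : s ^ 2 = R * u := by rw [hue]; field_simp
  rw [← hue]
  rw [he] at hl hu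
  exact ⟨le_of_mul_le_mul_left (by linarith) h, le_of_mul_le_mul_left (by linarith) h⟩

/-- **Range in dimension six**: curvature, cubic defect and quartic defect. -/
theorem range6 {h t t4 : ℝ} (H : BoundaryRange 5 h t t4) : 0 ≤ h ∧ h ≤ 8945 / 10000 ∧
    0 ≤ 1 - 5 * h ^ 2 / 4 ∧ ∃ s q, t = -h ^ 3 + h ^ 3 / 16 + 3 * h / 4 * (1 - 5 * h ^ 2 / 4) + s ∧
      t4 = h ^ 4 + h ^ 4 / 64 + 3 * h ^ 2 / 8 * (1 - 5 * h ^ 2 / 4) + h * s + q ∧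
      (1 - 5 * h ^ 2 / 4) ^ 2 / 4 + s ^ 2 / (1 - 5 * h ^ 2 / 4) ≤ q ∧
      q ≤ (1 - 5 * h ^ 2 / 4) ^ 2 / 2 + s ^ 2 / (1 - 5 * h ^ 2 / 4) / 4 ∧
      3 * s ^ 2 ≤ (1 - 5 * h ^ 2 / 4) ^ 3 := by
  obtain ⟨hh, l, i0, hne, hl, hi, hsum, hsq, ht, ht4⟩ := H
  rw [Fin.sum_univ_six] at hsum hsq ht ht4
  have key : ∀ a b c e : ℝ, a + b + c + e = h → a ^ 2 + b ^ 2 + c ^ 2 + e ^ 2 = 1 - h ^ 2 →
      t = -h ^ 3 + (a ^ 3 + b ^ 3 + c ^ 3 + e ^ 3) → t4 = h ^ 4 + (a ^ 4 + b ^ 4 + c ^ 4 + e ^ 4) →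
      0 ≤ h ∧ h ≤ 8945 / 10000 ∧
      0 ≤ 1 - 5 * h ^ 2 / 4 ∧ ∃ s q, t = -h ^ 3 + h ^ 3 / 16 + 3 * h / 4 * (1 - 5 * h ^ 2 / 4) + s ∧
      t4 = h ^ 4 + h ^ 4 / 64 + 3 * h ^ 2 / 8 * (1 - 5 * h ^ 2 / 4) + h * s + q ∧
      (1 - 5 * h ^ 2 / 4) ^ 2 / 4 + s ^ 2 / (1 - 5 * h ^ 2 / 4) ≤ q ∧
      q ≤ (1 - 5 * h ^ 2 / 4) ^ 2 / 2 + s ^ 2 / (1 - 5 * h ^ 2 / 4) / 4 ∧
      3 * s ^ 2 ≤ (1 - 5 * h ^ 2 / 4) ^ 3 := by
    intro a b c e h1 h2 h3 h4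
    obtain ⟨x, rfl⟩ : ∃ x, a = h / 4 + x := ⟨a - h / 4, by ring⟩
    obtain ⟨y, rfl⟩ : ∃ y, b = h / 4 + y := ⟨b - h / 4, by ring⟩
    obtain ⟨z, rfl⟩ : ∃ z, c = h / 4 + z := ⟨c - h / 4, by ring⟩
    obtain rfl : e = h / 4 - (x + y + z) := by linarith
    have hR : 1 - 5 * h ^ 2 / 4 = x ^ 2 + y ^ 2 + z ^ 2 + (x + y + z) ^ 2 := by linarith
    have hR0 : 0 ≤ 1 - 5 * h ^ 2 / 4 := by rw [hR]; positivity
    have hu := upper x y z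
    have hl := lower x y z
    refine ⟨hh, ?_, hR0, x ^ 3 + y ^ 3 + z ^ 3 - (x + y + z) ^ 3,
      x ^ 4 + y ^ 4 + z ^ 4 + (x + y + z) ^ 4, ?_, ?_, ?_, ?_, by rw [hR]; exact three_sq hl hu⟩
    · exact (pow_le_pow_iff_left₀ hh (by norm_num) two_ne_zero).1 (by linarith)
    · rw [h3, hR]; ring
    · rw [h4, hR]; ring
    · rw [hR]
      exact (q_bounds (by positivity) hl hu (fun h0 => quartic_zero h0)).1
    · rw [hR]
      exact (q_bounds (by positivity) hl hu (fun h0 => quartic_zero h0)).2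
  have hlast : l 5 = 0 := hl
  rw [hlast] at hsum hsq ht ht4
  fin_cases i0
  · simp only [Fin.zero_eta, Fin.isValue] at hi
    exact key (l 1) (l 2) (l 3) (l 4) (by linarith) (by rw [hi] at hsq; linarith)
      (by rw [ht, hi]; ring) (by rw [ht4, hi]; ring)
  · simp only [Fin.mk_one, Fin.isValue] at hi
    exact key (l 0) (l 2) (l 3) (l 4) (by linarith) (by rw [hi] at hsq; linarith)
      (by rw [ht, hi]; ring) (by rw [ht4, hi]; ring)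
  · simp only [Fin.reduceFinMk, Fin.isValue] at hi
    exact key (l 0) (l 1) (l 3) (l 4) (by linarith) (by rw [hi] at hsq; linarith)
      (by rw [ht, hi]; ring) (by rw [ht4, hi]; ring)
  · simp only [Fin.reduceFinMk, Fin.isValue] at hi
    exact key (l 0) (l 1) (l 2) (l 4) (by linarith) (by rw [hi] at hsq; linarith)
      (by rw [ht, hi]; ring) (by rw [ht4, hi]; ring)
  · simp only [Fin.reduceFinMk, Fin.isValue] at hi
    exact key (l 0) (l 1) (l 2) (l 3) (by linarith) (by rw [hi] at hsq; linarith)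
      (by rw [ht, hi]; ring) (by rw [ht4, hi]; ring)
  · exact absurd rfl hne

/-- A function affine in the quartic defect is nonnegative if it is so at both bounds. -/
theorem affine_nonneg {A c lo hi q : ℝ} (hl : lo ≤ q) (hu : q ≤ hi) (h1 : 0 ≤ A + c * lo)
    (h2 : 0 ≤ A + c * hi) : 0 ≤ A + c * q := by
  rcases le_total 0 c with hc | hc
  · linarith [mul_le_mul_of_nonneg_left hl hc]
  · linarith [mul_le_mul_of_nonpos_left hu hc]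

/-- The scaled square defect. -/
theorem exists_mu {R s : ℝ} (hR : 0 ≤ R) (hs : 3 * s ^ 2 ≤ R ^ 3) :
    ∃ μ : ℝ, 0 ≤ μ ∧ μ ≤ 1 ∧ μ * (R ^ 2 / 3) = s ^ 2 / R ∧ s ^ 2 = R * (s ^ 2 / R) := by
  rcases hR.eq_or_lt with h | h
  · subst h
    have : s ^ 2 = 0 := le_antisymm (by linarith) (sq_nonneg s)
    exact ⟨0, le_rfl, zero_le_one, by simp, by simpa using this⟩
  · refine ⟨3 * s ^ 2 / R ^ 3, by positivity, (div_le_one (by positivity)).2 hs, ?_, ?_⟩ <;>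
      field_simp

/-- Nonnegativity of `P0 + u P2 + s (P1 + c1 u)` for `s ^ 2 = R u`, `3 u ≤ R ^ 2`. -/
theorem root_nonneg {R P0 P1 P2 c1 s : ℝ} (hR : 0 ≤ R) (hs : 3 * s ^ 2 ≤ R ^ 3)
    (hL : ∀ μ : ℝ, 0 ≤ μ → μ ≤ 1 → 0 ≤ P0 + μ * (R ^ 2 / 3) * P2)
    (hG : ∀ μ : ℝ, 0 ≤ μ → μ ≤ 1 → R * (μ * (R ^ 2 / 3)) * (P1 + c1 * (μ * (R ^ 2 / 3))) ^ 2 ≤
      (P0 + μ * (R ^ 2 / 3) * P2) ^ 2) :
    0 ≤ P0 + s ^ 2 / R * P2 + s * (P1 + c1 * (s ^ 2 / R)) := by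
  obtain ⟨μ, hμ0, hμ1, hμu, hμs⟩ : ∃ μ : ℝ, 0 ≤ μ ∧ μ ≤ 1 ∧ μ * (R ^ 2 / 3) = s ^ 2 / R ∧
      s ^ 2 = R * (s ^ 2 / R) := by
    rcases hR.eq_or_lt with h | h
    · subst h
      have : s ^ 2 = 0 := le_antisymm (by linarith) (sq_nonneg s)
      exact ⟨0, le_rfl, zero_le_one, by simp, by simpa using this⟩
    · refine ⟨3 * s ^ 2 / R ^ 3, by positivity, (div_le_one (by positivity)).2 hs, ?_, ?_⟩ <;>
        field_simp
  have hl := hL μ hμ0 hμ1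
  have hg := hG μ hμ0 hμ1
  rw [hμu] at hl hg
  have h2 : (s * (P1 + c1 * (s ^ 2 / R))) ^ 2 ≤ (P0 + s ^ 2 / R * P2) ^ 2 := by
    rw [mul_pow]
    calc s ^ 2 * (P1 + c1 * (s ^ 2 / R)) ^ 2 = R * (s ^ 2 / R) * (P1 + c1 * (s ^ 2 / R)) ^ 2 := by
          rw [← hμs]
      _ ≤ _ := hg
  linarith [(abs_le.1 (abs_le_of_sq_le_sq h2 hl)).1]

/-- Two controls of an affine function. -/
theorem lin_controls {a0 a1 m0 m1 μ : ℝ} (h0 : m0 ≤ μ) (h1 : μ ≤ m1) (hm : m0 < m1)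
    (c0 : 0 ≤ a0 + a1 * m0) (c1 : 0 ≤ a0 + a1 * m1) : 0 ≤ a0 + a1 * μ := by
  have e : (m1 - m0) * (a0 + a1 * μ) = (a0 + a1 * m0) * (m1 - μ) + (a0 + a1 * m1) * (μ - m0) := by
    ring
  refine nonneg_of_mul_nonneg_right (a := m1 - m0) ?_ (by linarith)
  rw [e]
  exact add_nonneg (mul_nonneg c0 (by linarith)) (mul_nonneg c1 (by linarith))

/-- Four controls of a cubic. -/
theorem cubic_controls {a0 a1 a2 a3 m0 m1 μ : ℝ} (h0 : m0 ≤ μ) (h1 : μ ≤ m1) (hm : m0 < m1)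
    (c0 : 0 ≤ a0 + a1 * m0 + a2 * m0 ^ 2 + a3 * m0 ^ 3)
    (c1 : 0 ≤ a0 + a1 * ((2 * m0 + m1) / 3) + a2 * ((m0 ^ 2 + 2 * m0 * m1) / 3) + a3 * (m0 ^ 2 * m1))
    (c2 : 0 ≤ a0 + a1 * ((m0 + 2 * m1) / 3) + a2 * ((m1 ^ 2 + 2 * m0 * m1) / 3) + a3 * (m0 * m1 ^ 2))
    (c3 : 0 ≤ a0 + a1 * m1 + a2 * m1 ^ 2 + a3 * m1 ^ 3) :
    0 ≤ a0 + a1 * μ + a2 * μ ^ 2 + a3 * μ ^ 3 := by
  have e : (m1 - m0) ^ 3 * (a0 + a1 * μ + a2 * μ ^ 2 + a3 * μ ^ 3) =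
      (a0 + a1 * m0 + a2 * m0 ^ 2 + a3 * m0 ^ 3) * (m1 - μ) ^ 3
      + (a0 + a1 * ((2 * m0 + m1) / 3) + a2 * ((m0 ^ 2 + 2 * m0 * m1) / 3) + a3 * (m0 ^ 2 * m1)) *
          (3 * (m1 - μ) ^ 2 * (μ - m0))
      + (a0 + a1 * ((m0 + 2 * m1) / 3) + a2 * ((m1 ^ 2 + 2 * m0 * m1) / 3) + a3 * (m0 * m1 ^ 2)) *
          (3 * (m1 - μ) * (μ - m0) ^ 2)
      + (a0 + a1 * m1 + a2 * m1 ^ 2 + a3 * m1 ^ 3) * (μ - m0) ^ 3 := by ring
  have hx : 0 ≤ m1 - μ := by linarith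
  have hy : 0 ≤ μ - m0 := by linarith
  refine nonneg_of_mul_nonneg_right (a := (m1 - m0) ^ 3) ?_ (pow_pos (by linarith) 3)
  rw [e]
  positivity

end Vale.Agent.P098.Exact.D6
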