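import Vale.Agent.P098.Exact.KTable

/-! Exponent, flux table and density table of the certificate in dimension six (rounded from a
semidefinite program). -/

namespace Vale.Agent.P098.Exact.D6

/-- Homogeneity exponent. -/
noncomputable def al : ℝ := 13 / 20

/-- Terms of the flux: coefficient, form, exponents of the cubic trace, v.v, vAv, w. -/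
def table : List Term := [
  ⟨(4083 : ℚ) / 4096, .a1, 0, 0, 0, 0⟩,
  ⟨(1554 : ℚ) / 4096, .a1, 0, 0, 0, 1⟩,
  ⟨(-6610 : ℚ) / 4096, .a1, 0, 0, 0, 2⟩,
  ⟨(3120 : ℚ) / 4096, .a1, 0, 0, 1, 0⟩,
  ⟨(12700 : ℚ) / 4096, .a1, 0, 1, 0, 0⟩,
  ⟨(1308 : ℚ) / 4096, .a1, 1, 0, 0, 0⟩,
  ⟨(1489 : ℚ) / 4096, .a1, 1, 0, 0, 1⟩,
  ⟨(243 : ℚ) / 4096, .a1, 1, 0, 0, 2⟩,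
  ⟨(-2547 : ℚ) / 4096, .a1, 1, 0, 1, 0⟩,
  ⟨(2924 : ℚ) / 4096, .a1, 1, 1, 0, 0⟩,
  ⟨(-3012 : ℚ) / 4096, .a1, 2, 0, 0, 0⟩,
  ⟨(1748 : ℚ) / 4096, .a1, 2, 0, 0, 1⟩,
  ⟨(-2424 : ℚ) / 4096, .a1, 2, 0, 1, 0⟩,
  ⟨(759 : ℚ) / 4096, .a1, 2, 1, 0, 0⟩,
  ⟨(3268 : ℚ) / 4096, .a2, 0, 0, 0, 0⟩,
  ⟨(-5024 : ℚ) / 4096, .a2, 0, 0, 0, 1⟩,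
  ⟨(-865 : ℚ) / 4096, .a2, 0, 0, 0, 2⟩,
  ⟨(334 : ℚ) / 4096, .a2, 0, 0, 1, 0⟩,
  ⟨(-5205 : ℚ) / 4096, .a2, 0, 1, 0, 0⟩,
  ⟨(4852 : ℚ) / 4096, .a2, 1, 0, 0, 0⟩,
  ⟨(885 : ℚ) / 4096, .a2, 1, 0, 0, 1⟩,
  ⟨(4839 : ℚ) / 4096, .a2, 1, 0, 0, 2⟩,
  ⟨(-1297 : ℚ) / 4096, .a2, 1, 0, 1, 0⟩,
  ⟨(-2977 : ℚ) / 4096, .a2, 1, 1, 0, 0⟩,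
  ⟨(-1629 : ℚ) / 4096, .a2, 2, 0, 0, 0⟩,
  ⟨(1271 : ℚ) / 4096, .a2, 2, 0, 0, 1⟩,
  ⟨(-1471 : ℚ) / 4096, .a2, 2, 0, 1, 0⟩,
  ⟨(1876 : ℚ) / 4096, .a2, 2, 1, 0, 0⟩,
  ⟨(9937 : ℚ) / 4096, .s0, 0, 0, 0, 0⟩,
  ⟨(4650 : ℚ) / 4096, .s0, 1, 0, 0, 0⟩,
  ⟨(5649 : ℚ) / 4096, .s0, 2, 0, 0, 0⟩,
  ⟨(-6805 : ℚ) / 4096, .s1, 0, 0, 0, 0⟩,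
  ⟨(-12422 : ℚ) / 4096, .s1, 1, 0, 0, 0⟩,
  ⟨(-7936 : ℚ) / 4096, .s1, 2, 0, 0, 0⟩,
  ⟨(-16685 : ℚ) / 4096, .s2, 0, 0, 0, 0⟩,
  ⟨(3391 : ℚ) / 4096, .s2, 1, 0, 0, 0⟩,
  ⟨(1946 : ℚ) / 4096, .s2, 2, 0, 0, 0⟩,
  ⟨(6357 : ℚ) / 4096, .u0, 0, 0, 0, 0⟩,
  ⟨(-4985 : ℚ) / 4096, .u0, 0, 0, 0, 1⟩,
  ⟨(-4054 : ℚ) / 4096, .u0, 0, 0, 0, 2⟩,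
  ⟨(22719 : ℚ) / 4096, .u0, 0, 0, 1, 0⟩,
  ⟨(-2169 : ℚ) / 4096, .u0, 0, 0, 1, 1⟩,
  ⟨(17477 : ℚ) / 4096, .u0, 0, 1, 0, 0⟩,
  ⟨(16491 : ℚ) / 4096, .u0, 0, 1, 0, 1⟩,
  ⟨(-14829 : ℚ) / 4096, .u0, 1, 0, 0, 0⟩,
  ⟨(-2060 : ℚ) / 4096, .u0, 1, 0, 0, 1⟩,
  ⟨(3343 : ℚ) / 4096, .u0, 1, 0, 0, 2⟩,
  ⟨(571 : ℚ) / 4096, .u0, 1, 0, 1, 0⟩,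
  ⟨(5193 : ℚ) / 4096, .u0, 1, 0, 1, 1⟩,
  ⟨(8138 : ℚ) / 4096, .u0, 1, 1, 0, 0⟩,
  ⟨(5673 : ℚ) / 4096, .u0, 1, 1, 0, 1⟩,
  ⟨(-11188 : ℚ) / 4096, .u0, 2, 0, 0, 0⟩,
  ⟨(4593 : ℚ) / 4096, .u0, 2, 0, 0, 1⟩,
  ⟨(6361 : ℚ) / 4096, .u0, 2, 0, 1, 0⟩,
  ⟨(11630 : ℚ) / 4096, .u0, 2, 1, 0, 0⟩,
  ⟨(11493 : ℚ) / 4096, .u1, 0, 0, 0, 0⟩,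
  ⟨(11976 : ℚ) / 4096, .u1, 0, 0, 0, 1⟩,
  ⟨(-10819 : ℚ) / 4096, .u1, 0, 0, 0, 2⟩,
  ⟨(11773 : ℚ) / 4096, .u1, 0, 0, 1, 0⟩,
  ⟨(-2129 : ℚ) / 4096, .u1, 0, 0, 1, 1⟩,
  ⟨(-695 : ℚ) / 4096, .u1, 0, 1, 0, 0⟩,
  ⟨(-7910 : ℚ) / 4096, .u1, 0, 1, 0, 1⟩,
  ⟨(3485 : ℚ) / 4096, .u1, 1, 0, 0, 0⟩,
  ⟨(2426 : ℚ) / 4096, .u1, 1, 0, 0, 1⟩,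
  ⟨(-4399 : ℚ) / 4096, .u1, 1, 0, 0, 2⟩,
  ⟨(7390 : ℚ) / 4096, .u1, 1, 0, 1, 0⟩,
  ⟨(-1078 : ℚ) / 4096, .u1, 1, 0, 1, 1⟩,
  ⟨(-17 : ℚ) / 4096, .u1, 1, 1, 0, 0⟩,
  ⟨(4186 : ℚ) / 4096, .u1, 1, 1, 0, 1⟩,
  ⟨(-5175 : ℚ) / 4096, .u1, 2, 0, 0, 0⟩,
  ⟨(-2635 : ℚ) / 4096, .u1, 2, 0, 0, 1⟩,
  ⟨(-4616 : ℚ) / 4096, .u1, 2, 0, 1, 0⟩,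
  ⟨(3284 : ℚ) / 4096, .u1, 2, 1, 0, 0⟩,
  ⟨(-4654 : ℚ) / 4096, .u2, 0, 0, 0, 0⟩,
  ⟨(2741 : ℚ) / 4096, .u2, 0, 0, 0, 1⟩,
  ⟨(21778 : ℚ) / 4096, .u2, 0, 0, 0, 2⟩,
  ⟨(-23250 : ℚ) / 4096, .u2, 0, 0, 1, 0⟩,
  ⟨(4232 : ℚ) / 4096, .u2, 0, 0, 1, 1⟩,
  ⟨(-16566 : ℚ) / 4096, .u2, 0, 1, 0, 0⟩,
  ⟨(-18348 : ℚ) / 4096, .u2, 0, 1, 0, 1⟩,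
  ⟨(7063 : ℚ) / 4096, .u2, 1, 0, 0, 0⟩,
  ⟨(-1336 : ℚ) / 4096, .u2, 1, 0, 0, 1⟩,
  ⟨(4076 : ℚ) / 4096, .u2, 1, 0, 0, 2⟩,
  ⟨(-7323 : ℚ) / 4096, .u2, 1, 0, 1, 0⟩,
  ⟨(2821 : ℚ) / 4096, .u2, 1, 0, 1, 1⟩,
  ⟨(-6896 : ℚ) / 4096, .u2, 1, 1, 0, 0⟩,
  ⟨(-1959 : ℚ) / 4096, .u2, 1, 1, 0, 1⟩,
  ⟨(4706 : ℚ) / 4096, .u2, 2, 0, 0, 0⟩,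
  ⟨(1336 : ℚ) / 4096, .u2, 2, 0, 0, 1⟩,
  ⟨(-763 : ℚ) / 4096, .u2, 2, 0, 1, 0⟩,
  ⟨(-840 : ℚ) / 4096, .u2, 2, 1, 0, 0⟩,
  ⟨(752 : ℚ) / 4096, .dw, 0, 0, 0, 0⟩,
  ⟨(-4448 : ℚ) / 4096, .dw, 0, 0, 0, 1⟩,
  ⟨(3915 : ℚ) / 4096, .dw, 0, 0, 0, 2⟩,
  ⟨(544 : ℚ) / 4096, .dw, 0, 0, 1, 0⟩,
  ⟨(-566 : ℚ) / 4096, .dw, 0, 1, 0, 0⟩,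
  ⟨(5 : ℚ) / 4096, .dw, 1, 0, 0, 0⟩,
  ⟨(-2849 : ℚ) / 4096, .dw, 1, 0, 0, 1⟩,
  ⟨(-2754 : ℚ) / 4096, .dw, 1, 0, 0, 2⟩,
  ⟨(99 : ℚ) / 4096, .dw, 1, 0, 1, 0⟩,
  ⟨(-22 : ℚ) / 4096, .dw, 1, 1, 0, 0⟩,
  ⟨(1307 : ℚ) / 4096, .dw, 2, 0, 0, 0⟩,
  ⟨(7711 : ℚ) / 4096, .dw, 2, 0, 0, 1⟩,
  ⟨(-642 : ℚ) / 4096, .dw, 2, 0, 1, 0⟩,
  ⟨(-1538 : ℚ) / 4096, .dw, 2, 1, 0, 0⟩,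
  ⟨(7249 : ℚ) / 4096, .s11, 0, 0, 0, 0⟩,
  ⟨(2495 : ℚ) / 4096, .s11, 1, 0, 0, 0⟩,
  ⟨(205 : ℚ) / 4096, .s11, 2, 0, 0, 0⟩]

/-- Terms of the flux carrying one more factor vA^2v (exponent lowered by one). -/
def table2 : List Term := [
  ⟨(-9097 : ℚ) / 4096, .a1, 0, 0, 0, 0⟩,
  ⟨(-1588 : ℚ) / 4096, .a1, 1, 0, 0, 0⟩,
  ⟨(156 : ℚ) / 4096, .a1, 2, 0, 0, 0⟩,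
  ⟨(4370 : ℚ) / 4096, .a2, 0, 0, 0, 0⟩,
  ⟨(3402 : ℚ) / 4096, .a2, 1, 0, 0, 0⟩,
  ⟨(-135 : ℚ) / 4096, .a2, 2, 0, 0, 0⟩,
  ⟨(-13810 : ℚ) / 4096, .u0, 0, 0, 0, 0⟩,
  ⟨(682 : ℚ) / 4096, .u0, 0, 0, 0, 1⟩,
  ⟨(-9513 : ℚ) / 4096, .u0, 1, 0, 0, 0⟩,
  ⟨(1297 : ℚ) / 4096, .u0, 1, 0, 0, 1⟩,
  ⟨(-676 : ℚ) / 4096, .u0, 2, 0, 0, 0⟩,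
  ⟨(-5751 : ℚ) / 4096, .u1, 0, 0, 0, 0⟩,
  ⟨(669 : ℚ) / 4096, .u1, 0, 0, 0, 1⟩,
  ⟨(364 : ℚ) / 4096, .u1, 1, 0, 0, 0⟩,
  ⟨(3252 : ℚ) / 4096, .u1, 1, 0, 0, 1⟩,
  ⟨(640 : ℚ) / 4096, .u1, 2, 0, 0, 0⟩,
  ⟨(-199 : ℚ) / 4096, .u2, 0, 0, 0, 0⟩,
  ⟨(-3693 : ℚ) / 4096, .u2, 0, 0, 0, 1⟩,
  ⟨(-3657 : ℚ) / 4096, .u2, 1, 0, 0, 0⟩,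
  ⟨(-622 : ℚ) / 4096, .u2, 1, 0, 0, 1⟩,
  ⟨(56 : ℚ) / 4096, .u2, 2, 0, 0, 0⟩,
  ⟨(404 : ℚ) / 4096, .dw, 0, 0, 0, 0⟩,
  ⟨(183 : ℚ) / 4096, .dw, 1, 0, 0, 0⟩,
  ⟨(-406 : ℚ) / 4096, .dw, 2, 0, 0, 0⟩]

/-- Terms of the density: coefficient, exponents of the cubic trace, v.v, vAv, vA^2v, w. -/
def ktable : List KTerm := [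
  ⟨(4096 : ℚ) / 4096, 0, 0, 0, 0, 0⟩,
  ⟨(-13322 : ℚ) / 4096, 0, 0, 0, 1, 0⟩,
  ⟨(219 : ℚ) / 4096, 0, 0, 0, 0, 1⟩,
  ⟨(-4732 : ℚ) / 4096, 0, 0, 0, 0, 2⟩,
  ⟨(7818 : ℚ) / 4096, 0, 0, 1, 0, 0⟩,
  ⟨(12676 : ℚ) / 4096, 0, 1, 0, 0, 0⟩,
  ⟨(4684 : ℚ) / 4096, 1, 0, 0, 0, 0⟩,
  ⟨(-16580 : ℚ) / 4096, 1, 0, 0, 1, 0⟩,
  ⟨(-4598 : ℚ) / 4096, 1, 0, 0, 0, 1⟩,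
  ⟨(62 : ℚ) / 4096, 1, 0, 0, 0, 2⟩,
  ⟨(3950 : ℚ) / 4096, 1, 0, 1, 0, 0⟩,
  ⟨(-1327 : ℚ) / 4096, 1, 1, 0, 0, 0⟩,
  ⟨(3141 : ℚ) / 4096, 2, 0, 0, 0, 0⟩,
  ⟨(-7571 : ℚ) / 4096, 2, 0, 0, 1, 0⟩,
  ⟨(-1928 : ℚ) / 4096, 2, 0, 0, 0, 1⟩,
  ⟨(5061 : ℚ) / 4096, 2, 0, 1, 0, 0⟩,
  ⟨(-1172 : ℚ) / 4096, 2, 1, 0, 0, 0⟩]

end Vale.Agent.P098.Exact.D6
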