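import Vale.Agent.P098.Exact.KTable
import Vale.Agent.P098.Exact.D6.Range
import Vale.Agent.P098.Exact.D6.PolyNN
import Vale.Agent.P098.Exact.D6.Table

/-! The boundary inequality of the certificate in dimension six. -/

noncomputable section

set_option linter.unusedSimpArgs false

namespace Vale.Agent.P098.Exact.D6

/-- The defect radius. -/
def Rd (h : ℝ) : ℝ := 1 - 5 * h ^ 2 / 4

theorem root_poly {R E O s : ℝ} (hE : 0 ≤ E) (hs : s ^ 2 = R) (hG : R * O ^ 2 ≤ E ^ 2) :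
    0 ≤ E + s * O := by
  have h : (s * O) ^ 2 ≤ E ^ 2 := by rw [mul_pow, hs]; exact hG
  linarith [(abs_le.1 (abs_le_of_sq_le_sq h hE)).1]

/-- Boundary coefficient. -/
def fB00 (h : ℝ) : ℝ :=
    (9937 / 4096 : ℝ)
    + (-171691 / 16384 : ℝ) * h
    + (582187 / 65536 : ℝ) * h ^ 2
    + (4198605 / 262144 : ℝ) * h ^ 3
    + (-10101789 / 524288 : ℝ) * h ^ 4
    + (-16701111 / 1048576 : ℝ) * h ^ 5
    + (50433863 / 4194304 : ℝ) * h ^ 6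
    + (92959269 / 4194304 : ℝ) * h ^ 7
    + (-18468375 / 2097152 : ℝ) * h ^ 8
    + (-54518895 / 4194304 : ℝ) * h ^ 9
    + (70709175 / 16777216 : ℝ) * h ^ 10
    + (31538475 / 16777216 : ℝ) * h ^ 11
    + (-2581875 / 16777216 : ℝ) * h ^ 12

/-- Boundary coefficient. -/
def fB01 (h : ℝ) : ℝ :=
    (1937 / 4096 : ℝ)
    + (-4289 / 16384 : ℝ) * h
    + (-87707 / 65536 : ℝ) * h ^ 2
    + (2187 / 65536 : ℝ) * h ^ 3
    + (6405 / 8192 : ℝ) * h ^ 4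
    + (168255 / 65536 : ℝ) * h ^ 5
    + (-79875 / 262144 : ℝ) * h ^ 6
    + (-330975 / 262144 : ℝ) * h ^ 7
    + (30375 / 262144 : ℝ) * h ^ 8

/-- Boundary coefficient. -/
def fB10 (h : ℝ) : ℝ :=
    (-12133 / 4096 : ℝ)
    + (46251 / 8192 : ℝ) * h
    + (456545 / 65536 : ℝ) * h ^ 2
    + (-553185 / 65536 : ℝ) * h ^ 3
    + (-4907993 / 262144 : ℝ) * h ^ 4
    + (4999775 / 524288 : ℝ) * h ^ 5
    + (10032423 / 524288 : ℝ) * h ^ 6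
    + (-7465695 / 1048576 : ℝ) * h ^ 7
    + (-4890765 / 1048576 : ℝ) * h ^ 8
    + (415125 / 1048576 : ℝ) * h ^ 9

/-- Boundary coefficient. -/
def fB11 (h : ℝ) : ℝ :=
    (-1875 / 4096 : ℝ)
    + (-3335 / 8192 : ℝ) * h
    + (-11217 / 8192 : ℝ) * h ^ 2
    + (4515 / 16384 : ℝ) * h ^ 3
    + (22065 / 16384 : ℝ) * h ^ 4
    + (-2025 / 16384 : ℝ) * h ^ 5

/-- Boundary coefficient. -/
def fB20 (h : ℝ) : ℝ :=
    (1417 / 4096 : ℝ)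
    + (50965 / 16384 : ℝ) * h
    + (-84159 / 32768 : ℝ) * h ^ 2
    + (-15441 / 2048 : ℝ) * h ^ 3
    + (1031323 / 262144 : ℝ) * h ^ 4
    + (883691 / 262144 : ℝ) * h ^ 5
    + (-76275 / 262144 : ℝ) * h ^ 6

/-- Boundary coefficient. -/
def fB21 (h : ℝ) : ℝ :=
    (-247 / 4096 : ℝ)
    + (-1471 / 4096 : ℝ) * h
    + (135 / 4096 : ℝ) * h ^ 2

/-- Boundary coefficient. -/
def fB30 (h : ℝ) : ℝ :=
    (2253 / 4096 : ℝ)
    + (-1459 / 2048 : ℝ) * h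
    + (-1549 / 2048 : ℝ) * h ^ 2
    + (135 / 2048 : ℝ) * h ^ 3

/-- Boundary coefficient. -/
def fW00 (h : ℝ) : ℝ :=
    (93 / 2048 : ℝ)
    + (-2227 / 16384 : ℝ) * h
    + (3197 / 65536 : ℝ) * h ^ 2
    + (2121 / 16384 : ℝ) * h ^ 3
    + (9711 / 65536 : ℝ) * h ^ 4
    + (-8595 / 16384 : ℝ) * h ^ 5
    + (21105 / 262144 : ℝ) * h ^ 6
    + (72225 / 131072 : ℝ) * h ^ 7
    + (-45675 / 131072 : ℝ) * h ^ 8

/-- Boundary coefficient. -/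
def fW10 (h : ℝ) : ℝ :=
    (-17 / 4096 : ℝ)
    + (-891 / 8192 : ℝ) * h
    + (573 / 2048 : ℝ) * h ^ 2
    + (1029 / 16384 : ℝ) * h ^ 3
    + (-4815 / 8192 : ℝ) * h ^ 4
    + (3045 / 8192 : ℝ) * h ^ 5

/-- Boundary coefficient. -/
def fW20 (h : ℝ) : ℝ :=
    (-231 / 4096 : ℝ)
    + (321 / 2048 : ℝ) * h
    + (-203 / 2048 : ℝ) * h ^ 2

end Vale.Agent.P098.Exact.D6
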