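import Vale.Agent.P098.Exact.D6.BoundaryDefs

/-! One case of the boundary inequality of the certificate in dimension six. -/

noncomputable section

set_option linter.unusedSimpArgs false

namespace Vale.Agent.P098.Exact.D6

/-- Reduced coefficient. -/
def loE0 (h : ℝ) : ℝ := fB00 h + fB01 h * (1 / 4 : ℝ) * Rd h ^ 2

theorem loE0_eq (h : ℝ) : loE0 h =
    (41685 / 16384 : ℝ)
    + (-691053 / 65536 : ℝ) * h
    + (2163561 / 262144 : ℝ) * h ^ 2
    + (2121841 / 131072 : ℝ) * h ^ 3
    + (-2365981 / 131072 : ℝ) * h ^ 4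
    + (-8078593 / 524288 : ℝ) * h ^ 5
    + (5734011 / 524288 : ℝ) * h ^ 6
    + (21239961 / 1048576 : ℝ) * h ^ 7
    + (-8683875 / 1048576 : ℝ) * h ^ 8
    + (-23501385 / 2097152 : ℝ) * h ^ 9
    + (16874325 / 4194304 : ℝ) * h ^ 10
    + (5816025 / 4194304 : ℝ) * h ^ 11
    + (-455625 / 4194304 : ℝ) * h ^ 12 := by
  simp only [loE0, Rd, fB00, fB01, fB10, fB11, fB20, fB21, fB30] <;> ring

/-- Reduced coefficient. -/
def loE1 (h : ℝ) : ℝ := fB01 h * (1 : ℝ) + fB20 h * Rd h ^ 1 + fB21 h * (1 / 4 : ℝ) * Rd h ^ 2 * Rd h ^ 1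

theorem loE1_eq (h : ℝ) : loE1 h =
    (13169 / 16384 : ℝ)
    + (45205 / 16384 : ℝ) * h
    + (-35015 / 8192 : ℝ) * h ^ 2
    + (-724685 / 65536 : ℝ) * h ^ 3
    + (128203 / 16384 : ℝ) * h ^ 4
    + (1958473 / 131072 : ℝ) * h ^ 5
    + (-356865 / 65536 : ℝ) * h ^ 6
    + (-347405 / 65536 : ℝ) * h ^ 7
    + (30375 / 65536 : ℝ) * h ^ 8 := by
  simp only [loE1, Rd, fB00, fB01, fB10, fB11, fB20, fB21, fB30] <;> ring

/-- Reduced coefficient. -/
def loE2 (h : ℝ) : ℝ := fB21 h * (1 : ℝ) * Rd h ^ 1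

theorem loE2_eq (h : ℝ) : loE2 h =
    (-247 / 4096 : ℝ)
    + (-1471 / 4096 : ℝ) * h
    + (1775 / 16384 : ℝ) * h ^ 2
    + (7355 / 16384 : ℝ) * h ^ 3
    + (-675 / 16384 : ℝ) * h ^ 4 := by
  simp only [loE2, Rd, fB00, fB01, fB10, fB11, fB20, fB21, fB30] <;> ring

/-- Reduced coefficient. -/
def loO0 (h : ℝ) : ℝ := fB10 h + fB11 h * (1 / 4 : ℝ) * Rd h ^ 2

theorem loO0_eq (h : ℝ) : loO0 h =
    (-50407 / 16384 : ℝ)
    + (181669 / 32768 : ℝ) * h
    + (452861 / 65536 : ℝ) * h ^ 2
    + (-531995 / 65536 : ℝ) * h ^ 3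
    + (-1160567 / 65536 : ℝ) * h ^ 4
    + (1202475 / 131072 : ℝ) * h ^ 5
    + (4655349 / 262144 : ℝ) * h ^ 6
    + (-1817955 / 262144 : ℝ) * h ^ 7
    + (-1084785 / 262144 : ℝ) * h ^ 8
    + (91125 / 262144 : ℝ) * h ^ 9 := by
  simp only [loO0, Rd, fB00, fB01, fB10, fB11, fB20, fB21, fB30] <;> ring

/-- Reduced coefficient. -/
def loO1 (h : ℝ) : ℝ := fB11 h * (1 : ℝ) + fB30 h * Rd h ^ 1

theorem loO1_eq (h : ℝ) : loO1 h =
    (189 / 2048 : ℝ)
    + (-9171 / 8192 : ℝ) * h
    + (-46091 / 16384 : ℝ) * h ^ 2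
    + (20185 / 16384 : ℝ) * h ^ 3
    + (37555 / 16384 : ℝ) * h ^ 4
    + (-3375 / 16384 : ℝ) * h ^ 5 := by
  simp only [loO1, Rd, fB00, fB01, fB10, fB11, fB20, fB21, fB30] <;> ring

/-- Coefficient in the scaled square defect. -/
def loL0 (h : ℝ) : ℝ := loE0 h * (Rd h ^ 2 / 3) ^ 0

theorem loL0_eq (h : ℝ) : loL0 h =
    evZ [10671360, -44227392, 34616976, 67898912, -75711392, -64628744, 45872088, 84959844, -34735500, -47002770, 16874325, 5816025, -455625] h / 4194304 := by
  simp only [loL0, loE0_eq, loE1_eq, loE2_eq, loO0_eq, loO1_eq, Rd, evZ] <;> push_cast <;> ring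

/-- Coefficient in the scaled square defect. -/
def loL1 (h : ℝ) : ℝ := loE1 h * (Rd h ^ 2 / 3) ^ 1

theorem loL1_eq (h : ℝ) : loL1 h =
    evZ [1685632, 5786240, -13177920, -37655520, 41453384, 98351368, -66450640, -125690130, 55161800, 76754225, -20273250, -17370250, 1518750] h / 6291456 := by
  simp only [loL1, loE0_eq, loE1_eq, loE2_eq, loO0_eq, loO1_eq, Rd, evZ] <;> push_cast <;> ring

/-- Coefficient in the scaled square defect. -/
def loL2 (h : ℝ) : ℝ := loE2 h * (Rd h ^ 2 / 3) ^ 2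

theorem loL2_eq (h : ℝ) : loL2 h =
    evZ [-252928, -1506304, 1719040, 9414400, -4816000, -23536000, 7100000, 29420000, -5787500, -18387500, 2459375, 4596875, -421875] h / 37748736 := by
  simp only [loL2, loE0_eq, loE1_eq, loE2_eq, loO0_eq, loO1_eq, Rd, evZ] <;> push_cast <;> ring

theorem loL_0_0 {h : ℝ} (h0 : 0 ≤ h) (h1 : h ≤ 8945 / 10000) :
    0 ≤ loL0 h := by
  have e : loL0 h = evZ [10671360, -44227392, 34616976, 67898912, -75711392, -64628744, 45872088, 84959844, -34735500, -47002770, 16874325, 5816025, -455625] h / 4194304 := by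
    simp only [loL0_eq, loL1_eq, loL2_eq, evZ] <;> push_cast <;> ring
  rw [e]
  exact div_nonneg (nn_cover _ 8000 (by norm_num) 0 3578 [5367, 7156] (by decide +kernel)
    (by push_cast; linarith) (by simp; linarith)) (by norm_num)

theorem loL_0_1 {h : ℝ} (h0 : 0 ≤ h) (h1 : h ≤ 8945 / 10000) :
    0 ≤ loL0 h + loL1 h * (1 / 2 : ℝ) := by
  have e : loL0 h + loL1 h * (1 / 2 : ℝ) = evZ [33699712, -126895936, 90673008, 166041216, -185680792, -95534864, 71165624, 129189402, -49044700, -64254085, 30349725, 77825, 151875] h / 12582912 := by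
    simp only [loL0_eq, loL1_eq, loL2_eq, evZ] <;> push_cast <;> ring
  rw [e]
  exact div_nonneg (nn_cover _ 4000 (by norm_num) 0 1789 [3578] (by decide +kernel)
    (by push_cast; linarith) (by simp; linarith)) (by norm_num)

theorem loL_0_2 {h : ℝ} (h0 : 0 ≤ h) (h1 : h ≤ 8945 / 10000) :
    0 ≤ loL0 h + loL1 h + loL2 h := by
  have e : loL0 h + loL1 h + loL2 h = evZ [13237888, -45604424, 29275538, 49321436, -54687278, -1885811, 2655619, 4989727, 1570475, 2389115, 4086100, -5910050, 573750] h / 4718592 := by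
    simp only [loL0_eq, loL1_eq, loL2_eq, evZ] <;> push_cast <;> ring
  rw [e]
  exact div_nonneg (nn_cover _ 2000 (by norm_num) 0 1789 [] (by decide +kernel)
    (by push_cast; linarith) (by simp; linarith)) (by norm_num)

theorem loL_0 {h μ : ℝ} (h0 : 0 ≤ h) (h1 : h ≤ 8945 / 10000) (ha : (0 : ℝ) ≤ μ) (hb : μ ≤ (1 : ℝ)) :
    0 ≤ loL0 h + loL1 h * μ ^ 1 + loL2 h * μ ^ 2 := by
  have e : loL0 h + loL1 h * μ ^ 1 + loL2 h * μ ^ 2 =
      (loL0 h) * ((μ - (0 : ℝ)) ^ 0 * ((1 : ℝ) - μ) ^ 2 * (1 : ℝ))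
      + (loL0 h + loL1 h * (1 / 2 : ℝ)) * ((μ - (0 : ℝ)) ^ 1 * ((1 : ℝ) - μ) ^ 1 * (2 : ℝ))
      + (loL0 h + loL1 h + loL2 h) * ((μ - (0 : ℝ)) ^ 2 * ((1 : ℝ) - μ) ^ 0 * (1 : ℝ)) := by
    ring
  rw [e]
  exact (add_nonneg (add_nonneg (mul_nonneg (loL_0_0 h0 h1) (mul_nonneg (mul_nonneg (pow_nonneg (sub_nonneg.2 ha) _) (pow_nonneg (sub_nonneg.2 hb) _)) (by norm_num)))
    (mul_nonneg (loL_0_1 h0 h1) (mul_nonneg (mul_nonneg (pow_nonneg (sub_nonneg.2 ha) _) (pow_nonneg (sub_nonneg.2 hb) _)) (by norm_num))))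
    (mul_nonneg (loL_0_2 h0 h1) (mul_nonneg (mul_nonneg (pow_nonneg (sub_nonneg.2 ha) _) (pow_nonneg (sub_nonneg.2 hb) _)) (by norm_num))))

theorem loL_all {h μ : ℝ} (h0 : 0 ≤ h) (h1 : h ≤ 8945 / 10000) (u0 : 0 ≤ μ) (u1 : μ ≤ 1) :
    0 ≤ loL0 h + loL1 h * μ ^ 1 + loL2 h * μ ^ 2 := by
  exact loL_0 h0 h1 (by linarith) (by linarith)

/-- Coefficient in the scaled square defect. -/
def loG0 (h : ℝ) : ℝ := (loE0 h * loE0 h) * (Rd h ^ 2 / 3) ^ 0

theorem loG0_eq (h : ℝ) : loG0 h =
    evZ [113877924249600, -943932843786240, 2694882629136384, -1612889667692544, -6423535607676672, 10018591652815872, 6064220091913216, -17000277119460608, -8124776685997312, 23967054027360896, 10881045142463680, -28133844788412480, -9356478638003808, 22136149867513824, 8309956796626896, -13338160167960720, -5914792786289760, 6725088838071000, 1983440368808100, -2067744764380500, -230343002197875, 239114266278750, 18449418144375, -5299852781250, 207594140625] h / 17592186044416 := by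
  simp only [loG0, loE0_eq, loE1_eq, loE2_eq, loO0_eq, loO1_eq, Rd, evZ] <;> push_cast <;> ring

/-- Coefficient in the scaled square defect. -/
def loG1 (h : ℝ) : ℝ := (loE0 h * loE1 h + loE1 h * loE0 h) * (Rd h ^ 2 / 3) ^ 1 + -(Rd h * (loO0 h * loO0 h) * (Rd h ^ 2 / 3) ^ 1)

theorem loG1_eq (h : ℝ) : loG1 h =
    evZ [-23641556893696, 137230608867328, -130255446005760, -623545981081600, 1234011405062144, 866891452122112, -3235499878589056, 130237044842880, 3520997567416704, -1010100904093472, -178036382393904, -939509763020720, -3761128529250272, 4396920096481280, 4395865420460480, -5250136139470000, -2512014222644200, 3158678079201750, 856437917780625, -1000446028464375, -203374019801250, 141010294584375, 37027467365625, -7965350156250, 345990234375] h / 13194139533312 := by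
  simp only [loG1, loE0_eq, loE1_eq, loE2_eq, loO0_eq, loO1_eq, Rd, evZ] <;> push_cast <;> ring

/-- Coefficient in the scaled square defect. -/
def loG2 (h : ℝ) : ℝ := (loE0 h * loE2 h + loE1 h * loE1 h + loE2 h * loE0 h) * (Rd h ^ 2 / 3) ^ 2 + -(Rd h * (loO0 h * loO1 h + loO1 h * loO0 h) * (Rd h ^ 2 / 3) ^ 2)

theorem loG2_eq (h : ℝ) : loG2 h =
    evZ [7978476142592, -35467215634432, -31190670360576, 321507499130880, -103987525345280, -1159512056901632, 928637020256256, 1888781068836864, -2654262732789120, -300482651599872, 4264392308182208, -4500954726330560, -4569422625102160, 8998730588978000, 3791476547293000, -8901132355305000, -2713526146905000, 5066173777462500, 1571532422481250, -1620955981193750, -597119895396875, 264781078875000, 104612846140625, -21530496093750, 961083984375] h / 79164837199872 := by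
  simp only [loG2, loE0_eq, loE1_eq, loE2_eq, loO0_eq, loO1_eq, Rd, evZ] <;> push_cast <;> ring

/-- Coefficient in the scaled square defect. -/
def loG3 (h : ℝ) : ℝ := (loE1 h * loE2 h + loE2 h * loE1 h) * (Rd h ^ 2 / 3) ^ 3 + -(Rd h * (loO1 h * loO1 h) * (Rd h ^ 2 / 3) ^ 3)

theorem loG3_eq (h : ℝ) : loG3 h =
    evZ [-463799713792, -3093817982976, -5385824665600, 18536271151104, 72423853563904, -9463150960640, -316014960392192, -226171652167680, 712032793105920, 939246149388800, -871519259766400, -1912293712336000, 417524525516000, 2369066207340000, 344770208175000, -1883231706125000, -709208164850000, 961483453656250, 512718959671875, -306018405703125, -184124235625000, 57435100390625, 26997036328125, -5494816406250, 249169921875] h / 118747255799808 := by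
  simp only [loG3, loE0_eq, loE1_eq, loE2_eq, loO0_eq, loO1_eq, Rd, evZ] <;> push_cast <;> ring

/-- Coefficient in the scaled square defect. -/
def loG4 (h : ℝ) : ℝ := (loE2 h * loE2 h) * (Rd h ^ 2 / 3) ^ 4

theorem loG4_eq (h : ℝ) : loG4 h =
    evZ [63972573184, 761972916224, 1399365042176, -9941124382720, -22970595737600, 58782007296000, 139386298368000, -207869952000000, -481253698560000, 488268441600000, 1073751744000000, -799508505600000, -1630097246400000, 930684048000000, 1710304800000000, -769627200000000, -1225822818750000, 442679062500000, 574122390625000, -168475468750000, -158118349609375, 38125332031250, 19056162109375, -3878613281250, 177978515625] h / 1424967069597696 := by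
  simp only [loG4, loE0_eq, loE1_eq, loE2_eq, loO0_eq, loO1_eq, Rd, evZ] <;> push_cast <;> ring

theorem loG_0_0 {h : ℝ} (h0 : 0 ≤ h) (h1 : h ≤ 8945 / 10000) :
    0 ≤ loG0 h := by
  have e : loG0 h = evZ [113877924249600, -943932843786240, 2694882629136384, -1612889667692544, -6423535607676672, 10018591652815872, 6064220091913216, -17000277119460608, -8124776685997312, 23967054027360896, 10881045142463680, -28133844788412480, -9356478638003808, 22136149867513824, 8309956796626896, -13338160167960720, -5914792786289760, 6725088838071000, 1983440368808100, -2067744764380500, -230343002197875, 239114266278750, 18449418144375, -5299852781250, 207594140625] h / 17592186044416 := by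
    simp only [loG0_eq, loG1_eq, loG2_eq, loG3_eq, loG4_eq, evZ] <;> push_cast <;> ring
  rw [e]
  exact div_nonneg (nn_cover _ 8000 (by norm_num) 0 3578 [5367, 7156] (by decide +kernel)
    (by push_cast; linarith) (by simp; linarith)) (by norm_num)

theorem loG_0_1 {h : ℝ} (h0 : 0 ≤ h) (h1 : h ≤ 8945 / 10000) :
    0 ≤ loG0 h + loG1 h * (1 / 4 : ℝ) := by
  have e : loG0 h + loG1 h * (1 / 4 : ℝ) = evZ [317992215855104, -2694567922491392, 7954392441403392, -5462214984159232, -18036595417967872, 30922666410569728, 14957160397150592, -50870594313538944, -20853332490575232, 70891061177989216, 32465099044997136, -85341044128258160, -31830564443261696, 70805369699022752, 29325735810341168, -45264616643352160, -20256392581513480, 23333944593414750, 6806759024204925, -7203680321605875, -894403026394875, 858353093420625, 92375721798750, -23864908500000, 968772656250] h / 52776558133248 := by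
    simp only [loG0_eq, loG1_eq, loG2_eq, loG3_eq, loG4_eq, evZ] <;> push_cast <;> ring
  rw [e]
  exact div_nonneg (nn_cover _ 8000 (by norm_num) 0 3578 [5367, 7156] (by decide +kernel)
    (by push_cast; linarith) (by simp; linarith)) (by norm_num)

theorem loG_0_2 {h : ℝ} (h0 : 0 ≤ h) (h1 : h ≤ 8945 / 10000) :
    0 ≤ loG0 h + loG1 h * (1 / 2 : ℝ) + loG2 h * (1 / 6 : ℝ) := by
  have e : loG0 h + loG1 h * (1 / 2 : ℝ) + loG2 h * (1 / 6 : ℝ) = evZ [332141800849408, -2881437879781376, 8798255286027264, -6806292648504576, -18915905455187104, 35618313588415616, 13302947710913760, -56846804293678464, -19830659630151984, 78578519976682728, 36855994533951412, -97628242468480060, -40611832422213734, 85727417343564286, 38410735953063479, -57941738425088055, -25953648423040515, 30437472228876375, 8817538112543900, -9432261641478250, -1309639163895250, 1157381446365000, 158655193577500, -38500353000000, 1599243750000] h / 59373627899904 := by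
    simp only [loG0_eq, loG1_eq, loG2_eq, loG3_eq, loG4_eq, evZ] <;> push_cast <;> ring
  rw [e]
  exact div_nonneg (nn_cover _ 8000 (by norm_num) 0 3578 [5367, 7156] (by decide +kernel)
    (by push_cast; linarith) (by simp; linarith)) (by norm_num)

theorem loG_0_3 {h : ℝ} (h0 : 0 ≤ h) (h1 : h ≤ 8945 / 10000) :
    0 ≤ loG0 h + loG1 h * (3 / 4 : ℝ) + loG2 h * (1 / 2 : ℝ) + loG3 h * (1 / 4 : ℝ) := by
  have e : loG0 h + loG1 h * (3 / 4 : ℝ) + loG2 h * (1 / 2 : ℝ) + loG3 h * (1 / 4 : ℝ) = evZ [153740846707712, -1368153487981056, 4321623506798720, -3712543984272384, -8772293262066512, 18151252781978752, 4927833866258056, -28128181903770984, -8222049475433616, 38742220782675602, 18806430886666511, -50024733173751505, -22966633554103165, 46609884187633863, 22173524981963322, -33154414317041840, -14773348490423870, 17688856972025500, 5119001872813200, -5500627359756000, -855365219737000, 694696342520000, 114919467720000, -26765424000000, 1129950000000] h / 29686813949952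 := by
    simp only [loG0_eq, loG1_eq, loG2_eq, loG3_eq, loG4_eq, evZ] <;> push_cast <;> ring
  rw [e]
  exact div_nonneg (nn_cover _ 4000 (by norm_num) 0 1789 [3578] (by decide +kernel)
    (by push_cast; linarith) (by simp; linarith)) (by norm_num)

theorem loG_0_4 {h : ℝ} (h0 : 0 ≤ h) (h1 : h ≤ 8945 / 10000) :
    0 ≤ loG0 h + loG1 h + loG2 h + loG3 h + loG4 h := by
  have e : loG0 h + loG1 h + loG2 h + loG3 h + loG4 h = evZ [26597401040128, -243407923098880, 795286102320272, -749950780961416, -1515854735485487, 3453922687026612, 604806694123542, -5202659048329011, -1240440483032310, 7181996144842209, 3630903552402732, -9707315235918870, -4855258050896034, 9606375542290164, 4773258168304236, -7152322135689720, -3160060715532360, 3863441550540000, 1125657416035600, -1205286722608000, -209913846136000, 156604583360000, 30153988960000, -6823872000000, 291600000000] h / 5566277615616 := by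
    simp only [loG0_eq, loG1_eq, loG2_eq, loG3_eq, loG4_eq, evZ] <;> push_cast <;> ring
  rw [e]
  exact div_nonneg (nn_cover _ 4000 (by norm_num) 0 1789 [3578] (by decide +kernel)
    (by push_cast; linarith) (by simp; linarith)) (by norm_num)

theorem loG_0 {h μ : ℝ} (h0 : 0 ≤ h) (h1 : h ≤ 8945 / 10000) (ha : (0 : ℝ) ≤ μ) (hb : μ ≤ (1 : ℝ)) :
    0 ≤ loG0 h + loG1 h * μ ^ 1 + loG2 h * μ ^ 2 + loG3 h * μ ^ 3 + loG4 h * μ ^ 4 := by
  have e : loG0 h + loG1 h * μ ^ 1 + loG2 h * μ ^ 2 + loG3 h * μ ^ 3 + loG4 h * μ ^ 4 =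
      (loG0 h) * ((μ - (0 : ℝ)) ^ 0 * ((1 : ℝ) - μ) ^ 4 * (1 : ℝ))
      + (loG0 h + loG1 h * (1 / 4 : ℝ)) * ((μ - (0 : ℝ)) ^ 1 * ((1 : ℝ) - μ) ^ 3 * (4 : ℝ))
      + (loG0 h + loG1 h * (1 / 2 : ℝ) + loG2 h * (1 / 6 : ℝ)) * ((μ - (0 : ℝ)) ^ 2 * ((1 : ℝ) - μ) ^ 2 * (6 : ℝ))
      + (loG0 h + loG1 h * (3 / 4 : ℝ) + loG2 h * (1 / 2 : ℝ) + loG3 h * (1 / 4 : ℝ)) * ((μ - (0 : ℝ)) ^ 3 * ((1 : ℝ) - μ) ^ 1 * (4 : ℝ))
      + (loG0 h + loG1 h + loG2 h + loG3 h + loG4 h) * ((μ - (0 : ℝ)) ^ 4 * ((1 : ℝ) - μ) ^ 0 * (1 : ℝ)) := by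
    ring
  rw [e]
  exact (add_nonneg (add_nonneg (add_nonneg (add_nonneg (mul_nonneg (loG_0_0 h0 h1) (mul_nonneg (mul_nonneg (pow_nonneg (sub_nonneg.2 ha) _) (pow_nonneg (sub_nonneg.2 hb) _)) (by norm_num)))
    (mul_nonneg (loG_0_1 h0 h1) (mul_nonneg (mul_nonneg (pow_nonneg (sub_nonneg.2 ha) _) (pow_nonneg (sub_nonneg.2 hb) _)) (by norm_num))))
    (mul_nonneg (loG_0_2 h0 h1) (mul_nonneg (mul_nonneg (pow_nonneg (sub_nonneg.2 ha) _) (pow_nonneg (sub_nonneg.2 hb) _)) (by norm_num))))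
    (mul_nonneg (loG_0_3 h0 h1) (mul_nonneg (mul_nonneg (pow_nonneg (sub_nonneg.2 ha) _) (pow_nonneg (sub_nonneg.2 hb) _)) (by norm_num))))
    (mul_nonneg (loG_0_4 h0 h1) (mul_nonneg (mul_nonneg (pow_nonneg (sub_nonneg.2 ha) _) (pow_nonneg (sub_nonneg.2 hb) _)) (by norm_num))))

theorem loG_all {h μ : ℝ} (h0 : 0 ≤ h) (h1 : h ≤ 8945 / 10000) (u0 : 0 ≤ μ) (u1 : μ ≤ 1) :
    0 ≤ loG0 h + loG1 h * μ ^ 1 + loG2 h * μ ^ 2 + loG3 h * μ ^ 3 + loG4 h * μ ^ 4 := by
  exact loG_0 h0 h1 (by linarith) (by linarith)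

theorem lo_nonneg {h s : ℝ} (h0 : 0 ≤ h) (h1 : h ≤ 8945 / 10000) (hR : 0 ≤ Rd h)
    (hs : 3 * s ^ 2 ≤ Rd h ^ 3) :
    0 ≤ (loE0 h + loE1 h * (s ^ 2 / Rd h) ^ 1 + loE2 h * (s ^ 2 / Rd h) ^ 2) + s * (loO0 h + loO1 h * (s ^ 2 / Rd h) ^ 1) := by
  obtain ⟨μ, hμ0, hμ1, hμu, hμs⟩ := exists_mu hR hs
  have hL := loL_all h0 h1 hμ0 hμ1
  have hG := loG_all h0 h1 hμ0 hμ1
  simp only [loL0, loL1, loL2, loG0, loG1, loG2, loG3, loG4] at hL hG
  rw [← hμu]
  refine root_poly (R := Rd h * (μ * (Rd h ^ 2 / 3))) ?_ (hμu ▸ hμs) ?_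
  · linear_combination hL
  · linear_combination hG

end Vale.Agent.P098.Exact.D6
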