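import Vale.Agent.P098.Exact.Sos6.CoverK
import Vale.Agent.P098.Reg.Assemble
import Vale.Agent.P098.Reg.High.Main
import Vale.Agent.P098.Exact.D3.Cert
import Vale.Agent.P098.Exact.D4.Cert
import Vale.Agent.P098.Exact.D5.Cert
import Vale.Agent.P098.Exact.Sos.InteriorTable

/-!
From the data of a dimension six table (cover, rows, boxes, boundary inequality) to the statement
that there are no singular cones in dimensions one to six.
-/

noncomputable section

namespace Vale.Agent.P098.Exact.D6

open Sos6 Vale.Agent.P098.Reg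

/-- The certificate in dimension six from checked data. -/
def certOfBoxes (an : ℤ) (den : ℕ) (L L2 : List ITerm) (KL : List KI)
    (h1 : 50 < an) (h2 : an < 100) (δ : ℝ) (hδ : 0 < δ) (boxes : List Box) (T : Sos6.Tree)
    (hc : covers boxes T root = true)
    (hg : ∀ x ∈ boxes, x.GoodK ((an : ℝ) / 100) (L.map (ITerm.term den))
      (L2.map (ITerm.term den)) (KL.map (KI.term den)) δ)
    (hB : ∀ h t3 t4, BoundaryRange 5 h t3 t4 →
      0 ≤ bVal (L.map (ITerm.term den)) h t3 t4 + h ^ 2 * bVal (L2.map (ITerm.term den)) h t3 t4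
          + h * KVal (KL.map (KI.term den)) h t3 ∧
        0 ≤ wVal (L.map (ITerm.term den)) h t3 + h ^ 2 * wVal (L2.map (ITerm.term den)) h t3) :
    Cert 6 :=
  mkCertK ((an : ℝ) / 100) (L.map (ITerm.term den)) (L2.map (ITerm.term den))
    (KL.map (KI.term den))
    (by have : (50 : ℝ) < an := by exact_mod_cast h1
        linarith)
    (by have : (an : ℝ) < 100 := by exact_mod_cast h2
        linarith)
    δ hδ (interior_of_coverK _ _ _ _ δ boxes T hc hg) hB

/-- A certificate in dimension six gives flatness in dimensions one to six. -/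
theorem target_six (c : Nonempty (Cert 6)) : ∀ d : ℕ, 1 ≤ d → d ≤ 6 → Target d := by
  refine target_of_high 6 High.highReg fun n hn hn6 => ?_
  interval_cases n
  · exact ⟨D3.cert⟩
  · exact ⟨D4.certOf Sos.delta5 Sos.delta5_pos Sos.interior_table⟩
  · exact ⟨D5.certOf Sos.delta5 Sos.delta5_pos Sos.interior_table⟩
  · exact c

end Vale.Agent.P098.Exact.D6
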